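import Vale.Agent.P013.Jac.Dense
import Vale.Agent.P013.Sieve

/-! Buchstab's identity for counts in an interval, and the truncated inclusion-exclusion. -/

namespace Vale.Agent.P013.Jac

open Finset

/-- The companion product. -/
noncomputable def W (S : Finset ℕ) : ℝ := ∏ p ∈ S, (1 + 1 / (p : ℝ))

/-- The product of the elements, as a real number. -/
noncomputable def dprod (S : Finset ℕ) : ℝ := ∏ p ∈ S, (p : ℝ)

/-- The elements of `X` divisible by all of `D` and by none of `T`. -/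
noncomputable def cnt (X : Finset ℤ) (D T : Finset ℕ) : ℝ :=
  ((X.filter fun x => (∀ q ∈ D, (q : ℤ) ∣ x) ∧ ∀ p ∈ T, ¬(p : ℤ) ∣ x).card : ℝ)

theorem cnt_mono (X : Finset ℤ) (D : Finset ℕ) {T' T : Finset ℕ} (h : T' ⊆ T) :
    cnt X D T ≤ cnt X D T' := by
  unfold cnt
  exact_mod_cast card_le_card fun x hx => by
    simp only [mem_filter] at hx ⊢
    exact ⟨hx.1, hx.2.1, fun p hp => hx.2.2 p (h hp)⟩

theorem buchstab (X : Finset ℤ) (D T : Finset ℕ) :
    cnt X D T = cnt X D ∅ - ∑ p ∈ T, cnt X (insert p D) (T.filter fun q => q < p) := by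
  classical
  simp only [cnt, card_filter, Nat.cast_sum]
  rw [sum_comm, ← sum_sub_distrib]
  refine sum_congr rfl fun x _ => ?_
  by_cases hD : ∀ q ∈ D, (q : ℤ) ∣ x
  · by_cases hT : ∀ p ∈ T, ¬(p : ℤ) ∣ x
    · rw [sum_eq_zero fun p hp => ?_]
      · rw [if_pos ⟨hD, hT⟩, if_pos ⟨hD, by simp⟩, sub_zero]
      · simp [hT p hp]
    · obtain ⟨p₀, hp₀, hdv⟩ := by
        simpa only [not_forall, not_not, exists_prop] using hT
      have hne : (T.filter fun p : ℕ => (p : ℤ) ∣ x).Nonempty := ⟨p₀, mem_filter.2 ⟨hp₀, hdv⟩⟩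
      obtain ⟨hqT, hq⟩ := mem_filter.1 (min'_mem _ hne)
      set q := (T.filter fun p : ℕ => (p : ℤ) ∣ x).min' hne with hqdef
      rw [sum_eq_single q]
      · have hmin : ∀ r ∈ T.filter (fun r => r < q), ¬(r : ℤ) ∣ x := fun r hr hrx =>
          absurd ((min'_le _ _ (mem_filter.2 ⟨(mem_filter.1 hr).1, hrx⟩)).trans_lt
            (mem_filter.1 hr).2) (by rw [← hqdef]; exact lt_irrefl q)
        rw [if_neg (fun h => hT h.2), if_pos ⟨hD, by simp⟩, if_pos ⟨forall_mem_insert .. |>.2 ⟨hq, hD⟩, hmin⟩]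
        simp
      · intro p hp hpq
        rw [if_neg]
        · simp only [Nat.cast_zero]
        rintro ⟨h1, h2⟩
        have hpd := h1 p (mem_insert_self _ _)
        have hle : q ≤ p := min'_le _ _ (mem_filter.2 ⟨hp, hpd⟩)
        exact h2 q (mem_filter.2 ⟨hqT, lt_of_le_of_ne hle (Ne.symm hpq)⟩) hq
      · exact fun h => absurd hqT h
  · have : ∀ p, ¬ ∀ q ∈ insert p D, (q : ℤ) ∣ x := fun p h =>
      hD fun q hq => h q (mem_insert_of_mem hq)
    simp [hD]

theorem filter_lt_insert {a : ℕ} {s : Finset ℕ} (hs : ∀ x ∈ s, x < a) :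
    (insert a s).filter (fun q => q < a) = s ∧
      ∀ p ∈ s, (insert a s).filter (fun q => q < p) = s.filter (fun q => q < p) := by
  refine ⟨?_, fun p hp => ?_⟩
  · ext x; simp only [mem_filter, mem_insert]
    exact ⟨fun ⟨h, hx⟩ => h.resolve_left hx.ne, fun h => ⟨.inr h, hs x h⟩⟩
  · rw [filter_insert, if_neg (by have := hs p hp; omega)]

theorem V_expand (T : Finset ℕ) :
    ∑ p ∈ T, 1 / (p : ℝ) * V (T.filter fun q => q < p) = 1 - V T := by
  induction T using Finset.induction_on_max with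
  | empty => simp [V]
  | insert a s hs ih =>
    have ha : a ∉ s := fun h => lt_irrefl a (hs a h)
    obtain ⟨e1, e2⟩ := filter_lt_insert hs
    rw [sum_insert ha, e1, sum_congr rfl fun p hp => by rw [e2 p hp], ih]
    simp only [V, prod_insert ha]
    ring

theorem W_expand (T : Finset ℕ) :
    ∑ p ∈ T, 1 / (p : ℝ) * W (T.filter fun q => q < p) = W T - 1 := by
  induction T using Finset.induction_on_max with
  | empty => simp [W]
  | insert a s hs ih =>
    have ha : a ∉ s := fun h => lt_irrefl a (hs a h)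
    obtain ⟨e1, e2⟩ := filter_lt_insert hs
    rw [sum_insert ha, e1, sum_congr rfl fun p hp => by rw [e2 p hp], ih]
    simp only [W, prod_insert ha]
    ring

theorem V_tail (T : Finset ℕ) (c : ℝ) :
    ∑ p ∈ T.filter (fun p : ℕ => c ≤ p), 1 / (p : ℝ) * V (T.filter fun q => q < p)
      = V (T.filter fun p : ℕ => (p : ℝ) < c) - V T := by
  have h1 := V_expand T
  have h2 := V_expand (T.filter fun p : ℕ => (p : ℝ) < c)
  rw [← sum_filter_add_sum_filter_not T (fun p : ℕ => c ≤ p)] at h1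
  have h3 : ∑ p ∈ T.filter (fun p : ℕ => ¬ c ≤ p), 1 / (p : ℝ) * V (T.filter fun q => q < p)
      = 1 - V (T.filter fun p : ℕ => (p : ℝ) < c) := by
    rw [← h2]
    refine sum_congr (by ext; simp) fun p hp => ?_
    have hpc : (p : ℝ) < c := (mem_filter.1 hp).2
    rw [filter_filter]
    congr 2
    ext q
    simp only [mem_filter, and_congr_right_iff]
    exact fun _ => ⟨fun h => ⟨(Nat.cast_lt.2 h).trans hpc, h⟩, fun h => h.2⟩
  linarith

theorem W_pos (S : Finset ℕ) : 0 < W S := prod_pos fun p _ => by positivity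

theorem one_le_W (S : Finset ℕ) : 1 ≤ W S :=
  one_le_prod fun p _ => by linarith [show (0 : ℝ) ≤ 1 / (p : ℝ) by positivity]

theorem W_mono {S T : Finset ℕ} (h : S ⊆ T) : W S ≤ W T := by
  rw [W, W, ← prod_sdiff h]
  refine le_mul_of_one_le_left (W_pos S).le ?_
  exact one_le_prod fun p _ => by linarith [show (0 : ℝ) ≤ 1 / (p : ℝ) by positivity]

/-- Truncated inclusion-exclusion over `P₀`, on the multiples of a fixed product. -/
theorem brun (a : ℤ) (L : ℕ) (P₀ D : Finset ℕ) (hP : ∀ p ∈ P₀, p.Prime) (hD : ∀ q ∈ D, q.Prime)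
    (hdisj : Disjoint D P₀) {R : ℕ} (hR : 1 ≤ R) :
    |cnt ((Ico a (a + L)).filter fun x => ∀ p ∈ P₀, ¬(p : ℤ) ∣ x) D ∅ - (L : ℝ) * V P₀ / dprod D|
      ≤ 2 * ((∏ p ∈ P₀, (1 + 4 / (p : ℝ))) / 4 ^ R) * L / dprod D
        + 2 * (2 ^ R * ((P₀.card : ℝ) + 1) ^ R) := by
  classical
  set X := Ico a (a + (L : ℤ))
  let ind : Finset ℕ → ℤ → ℝ := fun F x => if ∀ q ∈ D ∪ F, (q : ℤ) ∣ x then 1 else 0
  have hcount : ∀ F ⊆ P₀, ∃ θ : ℝ, |θ| ≤ 1 ∧ ∑ x ∈ X, ind F x = L / (dprod D * dprod F) + θ := by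
    intro F hF
    have hpr : ∀ q ∈ D ∪ F, Nat.Prime q := fun q hq =>
      (mem_union.1 hq).elim (hD q) fun h => hP q (hF h)
    have hiff : ∀ x : ℤ, (∀ q ∈ D ∪ F, (q : ℤ) ∣ x) ↔ ((∏ q ∈ D ∪ F, q : ℕ) : ℤ) ∣ x := fun x =>
      ⟨fun h => Int.natCast_dvd.2 (prod_primes_dvd _ (fun q hq => Nat.prime_iff.1 (hpr q hq))
          fun q hq => Int.natCast_dvd.1 (h q hq)),
        fun h q hq => dvd_trans (Int.natCast_dvd_natCast.2 (dvd_prod_of_mem _ hq)) h⟩
    have hsum : ∑ x ∈ X, ind F x = mult a L (∏ q ∈ D ∪ F, q) := by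
      simp only [ind, hiff, sum_boole, mult, X]
    have hb := mult_bounds a L (prod_pos fun q hq => (hpr q hq).pos)
    have hd : ((∏ q ∈ D ∪ F, q : ℕ) : ℝ) = dprod D * dprod F := by
      rw [Nat.cast_prod, prod_union (hdisj.mono_right hF), dprod, dprod]
    rw [hd] at hb
    exact ⟨mult a L (∏ q ∈ D ∪ F, q) - L / (dprod D * dprod F),
      abs_le.2 ⟨by linarith [hb.1], by linarith [hb.2]⟩, by rw [hsum]; ring⟩
  choose! θ hθ using hcount
  set F1 := P₀.powerset.filter fun F => F.card < R with hF1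
  set F2 := P₀.powerset.filter fun F => F.card = R with hF2
  -- pointwise
  have hpt : ∀ x, |(if (∀ q ∈ D, (q : ℤ) ∣ x) ∧ ∀ p ∈ P₀, ¬(p : ℤ) ∣ x then (1 : ℝ) else 0)
      - ∑ F ∈ F1, (-1) ^ F.card * ind F x| ≤ ∑ F ∈ F2, ind F x := by
    intro x
    by_cases hx : ∀ q ∈ D, (q : ℤ) ∣ x
    · set A := P₀.filter fun p : ℕ => (p : ℤ) ∣ x with hA
      have hind : ∀ F ∈ P₀.powerset, ind F x = if F ⊆ A then 1 else 0 := by
        intro F hF
        simp only [ind]
        refine if_congr ?_ rfl rfl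
        constructor
        · exact fun h p hp => mem_filter.2 ⟨mem_powerset.1 hF hp, h p (mem_union_right _ hp)⟩
        · exact fun h q hq => (mem_union.1 hq).elim (hx q) fun h' => (mem_filter.1 (h h')).2
      have hset : ∀ j, (P₀.powerset.filter fun F => F.card = j ∧ F ⊆ A) = A.powersetCard j := by
        intro j; ext F
        simp only [mem_filter, mem_powerset, mem_powersetCard]
        exact ⟨fun h => ⟨h.2.2, h.2.1⟩, fun h => ⟨h.1.trans (filter_subset _ _), h.2, h.1⟩⟩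
      have hs2 : ∑ F ∈ F2, ind F x = (A.card.choose R : ℝ) := by
        rw [hF2, sum_congr rfl fun F hF => hind F (mem_filter.1 hF).1, sum_boole, filter_filter,
          hset, card_powersetCard]
      have hs1 : ∑ F ∈ F1, (-1) ^ F.card * ind F x
          = ((∑ j ∈ range R, (-1) ^ j * (A.card.choose j : ℤ) : ℤ) : ℝ) := by
        push_cast
        rw [hF1, ← sum_fiberwise_of_maps_to (g := Finset.card) (t := range R)
          fun F hF => mem_range.2 (mem_filter.1 hF).2]
        refine sum_congr rfl fun j hj => ?_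
        rw [filter_filter, sum_congr rfl (g := fun F => (-1 : ℝ) ^ j * if F ⊆ A then 1 else 0)
          fun F hF => by
            obtain ⟨hF', -, hc⟩ := mem_filter.1 hF
            rw [hind F hF', hc], ← mul_sum, sum_boole, filter_filter]
        congr 2
        rw [← card_powersetCard j A, ← hset]
        congr 1; ext F
        simp only [mem_filter]
        exact ⟨fun h => ⟨h.1, h.2.1.2, h.2.2⟩,
          fun h => ⟨h.1, ⟨h.2.1 ▸ mem_range.1 hj, h.2.1⟩, h.2.2⟩⟩
      rw [hs1, hs2]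
      obtain ⟨r, rfl⟩ : ∃ r, R = r + 1 := ⟨R - 1, by omega⟩
      by_cases hA0 : A.card = 0
      · have hall : ∀ p ∈ P₀, ¬(p : ℤ) ∣ x := fun p hp hpx =>
          filter_eq_empty_iff.1 (card_eq_zero.1 hA0) hp hpx
        simp [if_pos (And.intro hx hall), hA0, sum_range_succ']
      · have hnot : ¬ ∀ p ∈ P₀, ¬(p : ℤ) ∣ x := fun h =>
          hA0 (card_eq_zero.2 (filter_eq_empty_iff.2 fun p hp => h p hp))
        obtain ⟨t, ht⟩ : ∃ t, A.card = t + 1 := ⟨A.card - 1, by omega⟩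
        have key : ∀ r : ℕ, ∑ j ∈ range (r + 1), (-1) ^ j * ((t + 1).choose j : ℤ)
            = (-1) ^ r * (t.choose r : ℤ) := by
          intro r
          induction r with
          | zero => simp
          | succ r ih => rw [sum_range_succ, ih, Nat.choose_succ_succ' t r]; push_cast; ring
        rw [if_neg (fun h => hnot h.2), zero_sub, abs_neg, ht, key]
        push_cast
        rw [abs_mul, abs_pow, abs_neg, abs_one, one_pow, one_mul, Nat.abs_cast]
        rcases le_or_gt r t with h | h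
        · have := Nat.add_one_mul_choose_eq t r
          have h2 : t.choose r * (r + 1) ≤ (t + 1).choose (r + 1) * (r + 1) := by nlinarith
          exact_mod_cast Nat.le_of_mul_le_mul_right h2 (by omega)
        · simp [Nat.choose_eq_zero_of_lt h]
    · have h0 : ∀ F, ind F x = 0 := fun F => if_neg fun h => hx fun q hq => h q (mem_union_left _ hq)
      rw [if_neg (fun h => hx h.1)]
      simp [h0]
  -- sum over the interval
  have hcnt : cnt (X.filter fun x => ∀ p ∈ P₀, ¬(p : ℤ) ∣ x) D ∅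
      = ∑ x ∈ X, if (∀ q ∈ D, (q : ℤ) ∣ x) ∧ ∀ p ∈ P₀, ¬(p : ℤ) ∣ x then (1 : ℝ) else 0 := by
    rw [sum_boole, cnt, filter_filter]
    congr 2
    exact filter_congr fun x _ => ⟨fun h => ⟨h.2.1, h.1⟩, fun h => ⟨h.2, h.1, by simp⟩⟩
  have habs := (abs_sum_le_sum_abs _ _).trans (sum_le_sum fun x (_ : x ∈ X) => hpt x)
  rw [sum_sub_distrib, ← hcnt, sum_comm (s := X) (t := F1), sum_comm (s := X) (t := F2)] at habs
  have hm1 : ∑ F ∈ F1, ∑ x ∈ X, (-1) ^ F.card * ind F x
      = L / dprod D * ∑ F ∈ F1, (∏ p ∈ F, -(1 / (p : ℝ))) + ∑ F ∈ F1, (-1) ^ F.card * θ F := by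
    rw [mul_sum, ← sum_add_distrib]
    refine sum_congr rfl fun F hF => ?_
    rw [← mul_sum, (hθ F (mem_powerset.1 (mem_filter.1 hF).1)).2, prod_neg, prod_div_distrib,
      prod_const_one, ← show dprod F = ∏ p ∈ F, (p : ℝ) from rfl]
    ring
  have hm2 : ∑ F ∈ F2, ∑ x ∈ X, ind F x
      ≤ L / dprod D * ((∏ p ∈ P₀, (1 + 4 / (p : ℝ))) / 4 ^ R) + F2.card := by
    calc _ ≤ ∑ F ∈ F2, (L / dprod D * ((∏ p ∈ F, 4 / (p : ℝ)) / 4 ^ R) + 1) := by
          refine sum_le_sum fun F hF => ?_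
          obtain ⟨hF', hc⟩ := mem_filter.1 hF
          rw [(hθ F (mem_powerset.1 hF')).2, prod_div_distrib, prod_const, hc, dprod, dprod]
          have := (abs_le.1 (hθ F (mem_powerset.1 hF')).1).2
          have e : (L : ℝ) / (∏ p ∈ D, (p : ℝ)) * (4 ^ R / (∏ p ∈ F, (p : ℝ)) / 4 ^ R)
              = L / ((∏ p ∈ D, (p : ℝ)) * ∏ p ∈ F, (p : ℝ)) := by field_simp
          linarith
      _ ≤ _ := by
          rw [sum_add_distrib, ← mul_sum, sum_const, nsmul_eq_mul, mul_one, ← sum_div, prod_one_add]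
          refine add_le_add (mul_le_mul_of_nonneg_left (div_le_div_of_nonneg_right ?_ (by positivity))
            (div_nonneg L.cast_nonneg (prod_nonneg fun p _ => p.cast_nonneg))) le_rfl
          exact sum_le_sum_of_subset_of_nonneg (filter_subset _ _) fun F _ _ => by positivity
  have hV : |∑ F ∈ F1, (∏ p ∈ F, -(1 / (p : ℝ))) - V P₀|
      ≤ (∏ p ∈ P₀, (1 + 4 / (p : ℝ))) / 4 ^ R := by
    have hVexp : V P₀ = ∑ F ∈ P₀.powerset, ∏ p ∈ F, -(1 / (p : ℝ)) := by
      rw [← prod_one_add]; exact prod_congr rfl fun p _ => by ring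
    rw [hVexp, ← sum_filter_add_sum_filter_not P₀.powerset (fun F => F.card < R), sub_add_cancel_left,
      abs_neg, prod_one_add, sum_div]
    refine (abs_sum_le_sum_abs _ _).trans
      (le_trans (sum_le_sum fun F hF => ?_) (sum_le_sum_of_subset_of_nonneg (filter_subset _ _)
        fun F _ _ => by positivity))
    have hc : R ≤ F.card := not_lt.1 (mem_filter.1 hF).2
    rw [le_div_iff₀ (by positivity), abs_prod, prod_div_distrib]
    simp only [abs_neg, abs_div, abs_one, Nat.abs_cast, prod_div_distrib, prod_const_one, prod_const]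
    rw [div_mul_eq_mul_div, one_mul]
    exact div_le_div_of_nonneg_right (pow_le_pow_right₀ (by norm_num) hc)
      (prod_nonneg fun p _ => p.cast_nonneg)
  have hcard : ∀ G : Finset (Finset ℕ), G ⊆ P₀.powerset → (∀ F ∈ G, F.card ≤ R) →
      (G.card : ℝ) ≤ 2 ^ R * ((P₀.card : ℝ) + 1) ^ R := by
    intro G hG hc
    have h1 : G ⊆ (range (R + 1)).biUnion fun j => P₀.powersetCard j := fun F hF =>
      mem_biUnion.2 ⟨F.card, mem_range.2 (Nat.lt_succ_of_le (hc F hF)),
        mem_powersetCard.2 ⟨mem_powerset.1 (hG hF), rfl⟩⟩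
    have h2 : G.card ≤ (R + 1) * (P₀.card + 1) ^ R := by
      refine (card_le_card h1).trans (card_biUnion_le.trans ?_)
      refine (sum_le_card_nsmul _ _ ((P₀.card + 1) ^ R) fun j hj => ?_).trans (by simp)
      rw [card_powersetCard]
      exact (Nat.choose_le_pow _ _).trans ((Nat.pow_le_pow_left (Nat.le_succ _) _).trans
        (Nat.pow_le_pow_right (by omega) (Nat.le_of_lt_succ (mem_range.1 hj))))
    calc (G.card : ℝ) ≤ ((R + 1) * (P₀.card + 1) ^ R : ℕ) := by exact_mod_cast h2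
      _ ≤ _ := by
        push_cast
        gcongr
        exact_mod_cast Nat.lt_two_pow_self
  have hc1 := hcard F1 (filter_subset _ _) fun F hF => (mem_filter.1 hF).2.le
  have hc2 := hcard F2 (filter_subset _ _) fun F hF => (mem_filter.1 hF).2.le
  have hθ1 : |∑ F ∈ F1, (-1 : ℝ) ^ F.card * θ F| ≤ F1.card := by
    refine (abs_sum_le_sum_abs _ _).trans ((sum_le_card_nsmul _ _ (1 : ℝ) fun F hF => ?_).trans ?_)
    · rw [abs_mul, abs_pow, abs_neg, abs_one, one_pow, one_mul]
      exact (hθ F (mem_powerset.1 (mem_filter.1 hF).1)).1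
    · simp
  have hLd : (0 : ℝ) ≤ L / dprod D := div_nonneg L.cast_nonneg (prod_nonneg fun p _ => p.cast_nonneg)
  have hVm := mul_le_mul_of_nonneg_left hV hLd
  rw [← abs_of_nonneg hLd, ← abs_mul, abs_of_nonneg hLd] at hVm
  rw [hm1] at habs
  rw [abs_le] at habs hθ1 hVm ⊢
  have e1 : (L : ℝ) * V P₀ / dprod D = L / dprod D * V P₀ := by ring
  have e2 : 2 * ((∏ p ∈ P₀, (1 + 4 / (p : ℝ))) / 4 ^ R) * L / dprod D
      = 2 * (L / dprod D * ((∏ p ∈ P₀, (1 + 4 / (p : ℝ))) / 4 ^ R)) := by ring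
  rw [e1, e2]
  constructor <;> linarith [habs.1, habs.2, hθ1.1, hθ1.2, hVm.1, hVm.2]

end Vale.Agent.P013.Jac
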