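import Mathlib
import Vale.Agent.P013.Mertens

/-! The dense bound for the inverse of a product of `1 - 1/p` over primes in a range. -/

namespace Vale.Agent.P013.Jac

open Real Finset Filter

/-- The sifting density of a finite set. -/
noncomputable def V (S : Finset ℕ) : ℝ := ∏ p ∈ S, (1 - 1 / (p : ℝ))

theorem V_pos {S : Finset ℕ} (hS : ∀ p ∈ S, p.Prime) : 0 < V S :=
  prod_pos fun p hp => by
    have : (2 : ℝ) ≤ p := by exact_mod_cast (hS p hp).two_le
    rw [sub_pos, div_lt_one (by linarith)]; linarith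

theorem V_le_one {S : Finset ℕ} (hS : ∀ p ∈ S, p.Prime) : V S ≤ 1 :=
  prod_le_one (fun p hp => by
    have : (2 : ℝ) ≤ p := by exact_mod_cast (hS p hp).two_le
    rw [sub_nonneg, div_le_one (by linarith)]; linarith) fun p _ => by
      linarith [show (0 : ℝ) ≤ 1 / (p : ℝ) by positivity]

theorem neg_log_V_le {S : Finset ℕ} {c : ℝ} (hc : 2 ≤ c) (hS : ∀ p ∈ S, c ≤ (p : ℝ)) :
    -log (V S) ≤ (∑ p ∈ S, 1 / (p : ℝ)) * (1 + 1 / (c - 1)) := by
  rw [V, log_prod (fun p hp => by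
    have := hS p hp
    have : 0 < 1 - 1 / (p : ℝ) := by rw [sub_pos, div_lt_one (by linarith)]; linarith
    exact this.ne'), ← sum_neg_distrib, sum_mul]
  refine sum_le_sum fun p hp => ?_
  have hpc := hS p hp
  have hp0 : (0 : ℝ) < p := by linarith
  have hl := one_sub_inv_le_log_of_pos (show 0 < 1 - 1 / (p : ℝ) by
    rw [sub_pos, div_lt_one hp0]; linarith)
  have e : 1 - (1 - 1 / (p : ℝ))⁻¹ = -(1 / ((p : ℝ) - 1)) := by
    have : (p : ℝ) - 1 ≠ 0 := by linarith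
    field_simp; ring
  have e2 : 1 / ((p : ℝ) - 1) = 1 / (p : ℝ) * (1 + 1 / ((p : ℝ) - 1)) := by
    have : (p : ℝ) - 1 ≠ 0 := by linarith
    field_simp; ring
  have e3 : 1 / ((p : ℝ) - 1) ≤ 1 / (c - 1) :=
    one_div_le_one_div_of_le (by linarith) (by linarith)
  calc -log (1 - 1 / (p : ℝ)) ≤ 1 / ((p : ℝ) - 1) := by linarith
    _ = 1 / (p : ℝ) * (1 + 1 / ((p : ℝ) - 1)) := e2
    _ ≤ _ := mul_le_mul_of_nonneg_left (by linarith) (by positivity)

/-- Covering `[1, ρ]` by a geometric progression. -/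
theorem geom_cover {ρ R h : ℝ} (hρ : 1 ≤ ρ) (hR : ρ ≤ R) (hh : 0 < h) :
    ∃ j : ℕ, (j : ℝ) ≤ log R / log (1 + h) + 1 ∧ (j : ℝ) * h ≤ log ρ + h * (log R + 1) ∧
      ρ ≤ (1 + h) ^ j := by
  have hlh : 0 < log (1 + h) := log_pos (by linarith)
  have hlρ := log_nonneg hρ
  have hle : log ρ ≤ log R := log_le_log (by linarith) hR
  have hc := Nat.ceil_lt_add_one (div_nonneg hlρ hlh.le)
  refine ⟨⌈log ρ / log (1 + h)⌉₊, ?_, ?_, ?_⟩
  · linarith [div_le_div_of_nonneg_right hle hlh.le]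
  · have hl := one_sub_inv_le_log_of_pos (show 0 < 1 + h by linarith)
    have e : 1 - (1 + h)⁻¹ = h / (1 + h) := by field_simp; ring
    rw [e, div_le_iff₀ (by linarith)] at hl
    have h6 := mul_le_mul_of_nonneg_right hc.le hh.le
    have h5 : log ρ / log (1 + h) * h ≤ log ρ * (1 + h) := by
      rw [div_mul_eq_mul_div, div_le_iff₀ hlh, mul_assoc]
      exact mul_le_mul_of_nonneg_left (by linarith) hlρ
    nlinarith [mul_le_mul_of_nonneg_right hle hh.le]
  · rw [← log_le_log_iff (by linarith) (by positivity), log_pow]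
    have := Nat.le_ceil (log ρ / log (1 + h))
    rwa [div_le_iff₀ hlh] at this

theorem exp_finish {x L ε θ δ : ℝ} (hε : 0 < ε) (hθ : 0 < θ) (hL : 0 < L) (hL2 : L ≤ 2 / θ)
    (hδ : δ = log (1 + ε * θ / 2)) (hx : x ≤ log L + δ) : exp x ≤ L + ε := by
  have hpos : 0 < 1 + ε * θ / 2 := by positivity
  refine (exp_le_exp.2 hx).trans ?_
  rw [exp_add, exp_log hL, hδ, exp_log hpos]
  have h := mul_le_mul_of_nonneg_right hL2 (show 0 ≤ ε * θ / 2 by positivity)
  have : 2 / θ * (ε * θ / 2) = ε := by field_simp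
  linarith

theorem dense {ε θ : ℝ} (hε : 0 < ε) (hθ : 0 < θ) (hθ1 : θ ≤ 1) :
    ∃ k₀ : ℝ, ∀ K : ℝ, k₀ ≤ K → ∀ (S : Finset ℕ) (c z : ℝ), K ^ θ ≤ c → c ≤ z → z ≤ K ^ (2 : ℝ) →
      (∀ p ∈ S, p.Prime ∧ c ≤ p ∧ (p : ℝ) ≤ z) → (V S)⁻¹ ≤ log z / log c + ε := by
  obtain ⟨C, hC0, hC⟩ := prime_range
  obtain ⟨δ, hδ⟩ : ∃ δ, δ = log (1 + ε * θ / 2) := ⟨_, rfl⟩
  have hδ0 : 0 < δ := hδ ▸ log_pos (by nlinarith [mul_pos hε hθ])
  obtain ⟨R₀, hR₀⟩ : ∃ R₀, R₀ = 4 / θ := ⟨_, rfl⟩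
  have hR1 : 1 ≤ R₀ := by rw [hR₀, le_div_iff₀ hθ]; linarith
  have hlR : 0 ≤ log R₀ := log_nonneg hR1
  obtain ⟨h, hh⟩ : ∃ h, h = δ / (4 * (log R₀ + 1)) := ⟨_, rfl⟩
  have hh0 : 0 < h := by rw [hh]; positivity
  obtain ⟨Mb, hMb⟩ : ∃ Mb, Mb = log R₀ / log (1 + h) + 1 := ⟨_, rfl⟩
  have hlh : 0 < log (1 + h) := log_pos (by linarith)
  have hMb0 : 0 < Mb := by rw [hMb]; positivity
  obtain ⟨B, hB⟩ : ∃ B, B = log R₀ + δ + 1 := ⟨_, rfl⟩
  have hlim : Tendsto (fun K : ℝ => θ * log K) atTop atTop :=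
    tendsto_log_atTop.const_mul_atTop hθ
  obtain ⟨k₀, hk₀⟩ := eventually_atTop.1 ((hlim.eventually_ge_atTop (max 4 (16 * log 2 / δ)))
    |>.and ((hlim.eventually_ge_atTop (8 * Mb * C / δ)).and
    (((tendsto_rpow_atTop hθ).eventually_ge_atTop (4 * B / δ + 4)).and (eventually_ge_atTop 2))))
  refine ⟨k₀, fun K hK S c z hcK hcz hzK hS => ?_⟩
  obtain ⟨h1, h2, h3, hK2⟩ := hk₀ K hK
  have hl2 : 0 < log 2 := log_pos (by norm_num)
  have hK0 : 0 < K := by linarith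
  have hc4 : 4 ≤ c := le_trans (le_trans (by
    have : 0 ≤ 4 * B / δ := by rw [hB]; positivity
    linarith) h3) hcK
  have hlc : θ * log K ≤ log c := by
    rw [← log_rpow hK0]; exact log_le_log (rpow_pos_of_pos hK0 _) hcK
  have hlz : log z ≤ 2 * log K := by
    rw [← log_rpow hK0]; exact log_le_log (by linarith) hzK
  have hlcz : log c ≤ log z := log_le_log (by linarith) hcz
  have h14 : 4 ≤ θ * log K := le_trans (le_max_left _ _) h1
  have h16 : 16 * log 2 / δ ≤ θ * log K := le_trans (le_max_right _ _) h1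
  have hlogK : 0 < log K := log_pos (by linarith)
  obtain ⟨X, hX⟩ : ∃ X, X = c / 2 := ⟨_, rfl⟩
  have hlX : log X = log c - log 2 := hX ▸ log_div (by linarith) (by norm_num)
  have hl2' : log 2 ≤ 1 := by linarith [log_two_lt_d9]
  have hlX0 : θ * log K / 2 ≤ log X := by rw [hlX]; linarith
  have hlXp : 0 < log X := by linarith
  obtain ⟨ρ, hρ⟩ : ∃ ρ, ρ = log z / log X := ⟨_, rfl⟩
  have hρ1 : 1 ≤ ρ := by rw [hρ, le_div_iff₀ hlXp]; linarith
  have hρR : ρ ≤ R₀ := by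
    rw [hρ, hR₀, div_le_div_iff₀ hlXp hθ]
    linarith [mul_le_mul_of_nonneg_left hlz hθ.le]
  obtain ⟨j, hjle, hjh', hpow⟩ := geom_cover hρ1 hρR hh0
  have hjM : (j : ℝ) ≤ Mb := hMb ▸ hjle
  have hjh : (j : ℝ) * h ≤ log ρ + δ / 4 := by
    have h8 : h * (log R₀ + 1) = δ / 4 := by rw [hh]; field_simp
    linarith
  have hsum := hC X (1 + h) j S (by rw [hX]; linarith) (by linarith) fun p hp => by
    obtain ⟨hpp, hpc, hpz⟩ := hS p hp
    refine ⟨hpp, by rw [hX]; linarith, hpz.trans ?_⟩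
    have hz : z = X ^ ρ := by
      rw [hρ, rpow_def_of_pos (by linarith), mul_div_cancel₀ _ hlXp.ne', exp_log (by linarith)]
    rw [hz]
    exact rpow_le_rpow_of_exponent_le (by rw [hX]; linarith) hpow
  have hCerr : (j : ℝ) * C / log X ≤ δ / 4 := by
    rw [div_le_iff₀ hlXp]
    rw [div_le_iff₀ hδ0] at h2
    linarith [mul_le_mul_of_nonneg_right hjM hC0, mul_le_mul_of_nonneg_left hlX0 hδ0.le]
  have hs : ∑ p ∈ S, 1 / (p : ℝ) ≤ log ρ + δ / 2 := by
    have : (j : ℝ) * (1 + h - 1) = j * h := by ring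
    linarith
  have hsB : ∑ p ∈ S, 1 / (p : ℝ) ≤ B := by
    rw [hB]; linarith [log_le_log (by linarith) hρR]
  have hlog : -log (V S) ≤ log ρ + δ / 2 + δ / 4 := by
    refine (neg_log_V_le (by linarith) fun p hp => (hS p hp).2.1).trans ?_
    rw [mul_add, mul_one]
    have hB4 : (∑ p ∈ S, 1 / (p : ℝ)) * (1 / (c - 1)) ≤ δ / 4 := by
      rw [mul_one_div, div_le_iff₀ (by linarith)]
      have : 4 * B / δ ≤ c - 1 := by linarith [h3.trans hcK]
      rw [div_le_iff₀ hδ0] at this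
      linarith
    linarith
  have hρc : log ρ ≤ log (log z / log c) + δ / 4 := by
    have hc0 : 0 < log c := by linarith
    have : log ρ = log (log z / log c) + log (log c / log X) := by
      rw [← log_mul (div_pos (by linarith) hc0).ne' (div_pos hc0 hlXp).ne', hρ]
      congr 1; field_simp
    have h9 : log (log c / log X) ≤ δ / 4 := by
      refine (log_le_sub_one_of_pos (div_pos hc0 hlXp)).trans ?_
      rw [div_sub_one hlXp.ne', div_le_iff₀ hlXp, hlX]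
      rw [div_le_iff₀ hδ0] at h16
      have e1 := mul_le_mul_of_nonneg_right hlc hδ0.le
      have e2 : 2 * log 2 * δ ≤ log c * δ := mul_le_mul_of_nonneg_right (by linarith) hδ0.le
      linarith
    linarith
  have hV : 0 < V S := V_pos fun p hp => (hS p hp).1
  have hL0 : 0 < log z / log c := div_pos (by linarith) (by linarith)
  have hLb : log z / log c ≤ 2 / θ := by
    rw [div_le_div_iff₀ (by linarith) hθ]
    linarith [mul_le_mul_of_nonneg_left hlz hθ.le]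
  rw [show (V S)⁻¹ = exp (-log (V S)) by rw [exp_neg, exp_log hV]]
  exact exp_finish hε hθ hL0 hLb hδ (by linarith)

end Vale.Agent.P013.Jac
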