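import Vale.Agent.P013.Jac.Pair

/-!
The exact identity at `2` for the truncated pair, and the gain obtained when the dense bound for
`V (p) / V (z)` is capped by a constant.
-/

namespace Vale.Agent.P013.Jac

open Real Finset

variable {m N : ℕ}

theorem ps_step (hm : 200 ≤ m) {i : ℕ} (hi : 2 * m ≤ i) (hiN : i ≤ N) :
    (i : ℝ) * ps m N i = hat m N (i - m) + ((i + 1 : ℕ) : ℝ) * ps m N (i + 1) := by
  rw [ps_eq hm hi, ps_eq hm (by omega), ← add_sum_Ioc_eq_sum_Icc hiN,
    ← Finset.Icc_succ_left_eq_Ioc, Order.succ_eq_add_one]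

theorem ph_step (hm : 200 ≤ m) {i : ℕ} (hi : 3 * m ≤ i) (hiN : i ≤ N) :
    (i : ℝ) * ph m N i = ps m N (i - m) + ((i + 1 : ℕ) : ℝ) * ph m N (i + 1) := by
  rw [ph_eq hm hi, ph_eq hm (by omega), ← add_sum_Ioc_eq_sum_Icc hiN,
    ← Finset.Icc_succ_left_eq_Ioc, Order.succ_eq_add_one]

/-- The lower function at `2` is at least `-O(1/m)`: the exact identity. -/
theorem lower_at_two (hm : 200 ≤ m) (hN : 4 * m ≤ N) :
    ((m : ℝ) - 1) * (2 * m * ps m N (2 * m) - 2 * m) ≤ 3 * m * (1 + ph m N (3 * m)) := by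
  set A : ℝ := 3 * m * (1 + ph m N (3 * m)) with hA
  set u : ℕ → ℝ := fun j => hat m N j + ps m N j with hu
  set J : ℕ → ℝ := fun i =>
    ((i : ℝ) - m - 1) * i * u i - ∑ j ∈ Ico (i - m) i, (j : ℝ) * u j with hJ
  have hstep : ∀ i, 3 * m ≤ i → i ≤ N → J (i + 1) = J i := by
    intro i h1 h2
    have e1 := ps_step hm (show 2 * m ≤ i by omega) h2
    have e2 := ph_step hm h1 h2
    have hu1 : u i = ph m N i + ps m N i := by simp [hu, hat, hatOf, not_lt.2 h1]
    have hu2 : u (i + 1) = ph m N (i + 1) + ps m N (i + 1) := by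
      simp [hu, hat, hatOf, show ¬ i + 1 < 3 * m by omega]
    have hu3 : u (i - m) = hat m N (i - m) + ps m N (i - m) := rfl
    have hsum : ∑ j ∈ Ico (i + 1 - m) (i + 1), (j : ℝ) * u j
        = (∑ j ∈ Ico (i - m) i, (j : ℝ) * u j) - ((i - m : ℕ) : ℝ) * u (i - m) + i * u i := by
      rw [sum_Ico_succ_top (by omega), show i + 1 - m = i - m + 1 by omega,
        sum_eq_sum_Ico_succ_bot (show i - m < i by omega)]
      ring
    simp only [hJ, hsum]
    rw [hu1, hu2, hu3, Nat.cast_sub (by omega)]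
    push_cast at e1 e2 ⊢
    linear_combination (-((i : ℝ) - m)) * e1 - ((i : ℝ) - m) * e2
  have hend : J (N + 1) ≤ 0 := by
    have h0 : u (N + 1) = 0 := by
      have h1 := ps_eq (N := N) hm (show 2 * m ≤ N + 1 by omega)
      have h2 := ph_eq (N := N) hm (show 3 * m ≤ N + 1 by omega)
      rw [Icc_eq_empty (by omega), sum_empty, mul_eq_zero] at h1 h2
      have hne : ((N + 1 : ℕ) : ℝ) ≠ 0 := by exact_mod_cast Nat.succ_ne_zero N
      simp [hu, hat, hatOf, show ¬ N + 1 < 3 * m by omega, h1.resolve_left hne, h2.resolve_left hne]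
    have hs : 0 ≤ ∑ j ∈ Ico (N + 1 - m) (N + 1), (j : ℝ) * u j :=
      sum_nonneg fun j hj => mul_nonneg j.cast_nonneg
        (add_nonneg (hat_nonneg hm (by have := (mem_Ico.1 hj).1; omega)) (ps_mem hm j).1)
    simp only [hJ, h0, mul_zero, zero_sub]
    linarith
  have hconst : ∀ i, 3 * m ≤ i → i ≤ N + 1 → J i = J (3 * m) := by
    intro i h1
    induction i, h1 using Nat.le_induction with
    | base => simp
    | succ i h1 ih => intro h2; rw [hstep i h1 (by omega), ih (by omega)]
  rw [hconst (N + 1) (by omega) le_rfl] at hend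
  -- the values on the first window
  set H : ℕ → ℝ := fun r => ∑ s ∈ range r, 1 / ((m : ℝ) + s) with hH
  have hP : ∀ r, r ≤ m → ((2 * m + r : ℕ) : ℝ) * ps m N (2 * m + r)
      = 2 * m * ps m N (2 * m) - A * H r + r := by
    intro r hr
    induction r with
    | zero => simp [hH]
    | succ r ih =>
      have e := ps_step hm (show 2 * m ≤ 2 * m + r by omega) (show 2 * m + r ≤ N by omega)
      have hh : hat m N (2 * m + r - m) = A / ((m : ℝ) + r) - 1 := by
        simp only [hat, hatOf, hA, show 2 * m + r - m = m + r by omega,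
          if_pos (show m + r < 3 * m by omega)]
        push_cast; rfl
      rw [hh, show 2 * m + r + 1 = 2 * m + (r + 1) by omega, ih (by omega)] at e
      simp only [hH, sum_range_succ] at e ⊢
      rw [div_eq_mul_one_div A] at e
      push_cast at e ⊢
      linarith
  set B : ℝ := A - 2 * m + 2 * m * ps m N (2 * m) with hB
  have hju : ∀ r, r ≤ m → ((2 * m + r : ℕ) : ℝ) * u (2 * m + r) = B - A * H r := by
    intro r hr
    have hh : ((2 * m + r : ℕ) : ℝ) * hat m N (2 * m + r) = A - ((2 * m + r : ℕ) : ℝ) := by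
      rcases lt_or_eq_of_le hr with h | h
      · have hne : ((2 * m + r : ℕ) : ℝ) ≠ 0 := by exact_mod_cast (by omega : 2 * m + r ≠ 0)
        simp only [hat, hatOf, if_pos (show 2 * m + r < 3 * m by omega), hA]
        field_simp
      · rw [h, show 2 * m + m = 3 * m by omega]
        simp only [hat, hatOf, lt_irrefl, if_false, hA]
        push_cast; ring
    simp only [hu, mul_add]
    rw [hh, hP r hr, hB]
    push_cast; ring
  have hHsum : ∀ r, ∑ s ∈ range r, H s = ((m : ℝ) + r - 1) * H r - r := by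
    intro r
    induction r with
    | zero => simp [hH]
    | succ r ih =>
      rw [sum_range_succ, ih]
      have : H (r + 1) = H r + 1 / ((m : ℝ) + r) := sum_range_succ _ _
      rw [this]
      have : (m : ℝ) + r ≠ 0 := by
        have : (200 : ℝ) ≤ m := by exact_mod_cast hm
        positivity
      push_cast; field_simp; ring
  have hJ3 : J (3 * m) = ((m : ℝ) - 1) * B - A * m := by
    have hs : ∑ j ∈ Ico (3 * m - m) (3 * m), (j : ℝ) * u j = ∑ r ∈ range m, (B - A * H r) := by
      rw [sum_Ico_eq_sum_range, show 3 * m - (3 * m - m) = m by omega]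
      exact sum_congr rfl fun r hr => by
        rw [show 3 * m - m + r = 2 * m + r by omega]; exact hju r (mem_range.1 hr).le
    have h3 := hju m le_rfl
    rw [show 2 * m + m = 3 * m by omega] at h3
    simp only [hJ, hs, sum_sub_distrib, sum_const, card_range, nsmul_eq_mul, ← mul_sum]
    rw [hHsum m, mul_assoc _ ((3 * m : ℕ) : ℝ), h3]
    push_cast; ring
  rw [hJ3, hB] at hend
  nlinarith

theorem sum_ge {f : ℕ → ℝ} {c : ℝ} {a h b : ℕ} (hab : a + h ≤ b)
    (hc : ∀ j, a ≤ j → j ≤ a + h → c ≤ f j) (h0 : ∀ j ∈ Icc a b, 0 ≤ f j) :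
    ((h : ℝ) + 1) * c ≤ ∑ j ∈ Icc a b, f j := by
  refine le_trans ?_ (sum_le_sum_of_subset_of_nonneg (Icc_subset_Icc_right hab) fun j hj _ => h0 j hj)
  refine le_trans (le_of_eq ?_) (card_nsmul_le_sum _ _ c fun j hj =>
    hc j (mem_Icc.1 hj).1 (mem_Icc.1 hj).2)
  rw [nsmul_eq_mul, Nat.card_Icc, show a + h + 1 - a = h + 1 by omega]
  push_cast; ring

/-- The deficits are bounded below on bounded ranges, uniformly in `m` and `N`. -/
theorem deficit_ge (L : ℕ) (hL : 3 ≤ L) : ∃ c : ℝ, 0 < c ∧ ∀ m N : ℕ, 200 ≤ m → (L + 1) * m ≤ N →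
    ∀ i, 2 * m ≤ i → i ≤ L * m → c ≤ hat m N i ∧ c ≤ ps m N i := by
  suffices ∀ l : ℕ, ∃ c : ℝ, 0 < c ∧ ∀ m N : ℕ, 200 ≤ m → (L + 1) * m ≤ N →
      ∀ i, 2 * m ≤ i → i ≤ L * m → i ≤ 3 * m + l * (m / 2) → c ≤ hat m N i ∧ c ≤ ps m N i by
    obtain ⟨c, hc, h⟩ := this (3 * L)
    refine ⟨c, hc, fun m N hm hN i hi hiL => h m N hm hN i hi hiL ?_⟩
    have : m ≤ 3 * (m / 2) := by omega
    nlinarith
  intro l
  induction l with
  | zero =>
    refine ⟨1 / 180, by norm_num, fun m N hm hN i hi _ hi3 => ?_⟩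
    simp only [zero_mul, add_zero] at hi3
    have hN4 : 4 * m ≤ N := by nlinarith
    have hmR : (200 : ℝ) ≤ m := by exact_mod_cast hm
    have hhalf : (m : ℝ) / 2 ≤ ((m / 2 : ℕ) : ℝ) + 1 := by
      have : (m : ℝ) ≤ ((2 * (m / 2) + 1 : ℕ) : ℝ) := by exact_mod_cast (by omega : m ≤ 2 * (m / 2) + 1)
      push_cast at this; linarith
    have hps : ∀ i, 2 * m ≤ i → i ≤ 3 * m → 1 / 30 ≤ ps m N i := by
      intro i h1 h2
      have he := ps_eq (N := N) hm h1
      have hs : (((m / 2 : ℕ) : ℝ) + 1) * (1 / 5) ≤ ∑ j ∈ Icc i N, hat m N (j - m) := by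
        refine sum_ge (f := fun j => hat m N (j - m)) (by omega) (fun j hj1 hj2 => ?_)
          fun j hj => hat_nonneg hm (by have := (mem_Icc.1 hj).1; omega)
        have hl : ((j - m : ℕ) : ℝ) ≤ 5 / 2 * m := by
          have : ((2 * (j - m) : ℕ) : ℝ) ≤ ((5 * m : ℕ) : ℝ) := by
            exact_mod_cast (by omega : 2 * (j - m) ≤ 5 * m)
          push_cast at this; linarith
        have hl0 : (0 : ℝ) < (j - m : ℕ) := by exact_mod_cast (by omega : 0 < j - m)
        simp only [hat, hatOf, if_pos (show j - m < 3 * m by omega)]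
        rw [le_sub_iff_add_le, le_div_iff₀ hl0]
        nlinarith [(ph_mem (N := N) hm (3 * m)).1]
      rw [← he] at hs
      have hiR : (i : ℝ) ≤ 3 * m := by exact_mod_cast h2
      have := mul_le_mul_of_nonneg_right hiR (ps_mem (N := N) hm i).1
      nlinarith
    have hph : 1 / 180 ≤ ph m N (3 * m) := by
      have he := ph_eq (N := N) hm (le_refl (3 * m))
      have hs : (((m / 2 : ℕ) : ℝ) + 1) * (1 / 30) ≤ ∑ j ∈ Icc (3 * m) N, ps m N (j - m) :=
        sum_ge (f := fun j => ps m N (j - m)) (by omega)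
          (fun j hj1 hj2 => hps _ (by omega) (by omega)) fun j _ => (ps_mem hm _).1
      rw [← he] at hs
      push_cast at hs
      nlinarith
    refine ⟨hph.trans ?_, (by linarith [hps i hi hi3])⟩
    refine le_trans (le_of_eq ?_) (hat_anti hm (show 1 ≤ i by omega) hi3)
    simp [hat, hatOf]
  | succ l ih =>
    obtain ⟨c, hc, h⟩ := ih
    have hL0 : (0 : ℝ) < L := by exact_mod_cast (by omega : 0 < L)
    refine ⟨min c (c / (2 * L)), lt_min hc (by positivity), fun m N hm hN i hi hiL hil => ?_⟩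
    rcases le_or_gt i (3 * m + l * (m / 2)) with hold | hnew
    · exact ⟨(min_le_left _ _).trans (h m N hm hN i hi hiL hold).1,
        (min_le_left _ _).trans (h m N hm hN i hi hiL hold).2⟩
    · have hhalf : (m : ℝ) / 2 ≤ ((m / 2 : ℕ) : ℝ) + 1 := by
        have : (m : ℝ) ≤ ((2 * (m / 2) + 1 : ℕ) : ℝ) := by
          exact_mod_cast (by omega : m ≤ 2 * (m / 2) + 1)
        push_cast at this; linarith
      have hiR : (i : ℝ) ≤ L * m := by exact_mod_cast hiL
      have hle : i + m / 2 - m ≤ 3 * m + l * (m / 2) := by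
        rw [add_mul, one_mul] at hil; omega
      have hiN : i + m / 2 ≤ N := by rw [add_mul, one_mul] at hN; omega
      have key : ∀ x : ℝ, 0 ≤ x → (((m / 2 : ℕ) : ℝ) + 1) * c ≤ i * x → min c (c / (2 * L)) ≤ x := by
        intro x hx hs
        refine (min_le_right _ _).trans ?_
        rw [div_le_iff₀ (by positivity)]
        have h1 := mul_le_mul_of_nonneg_right hhalf hc.le
        have h2 := mul_le_mul_of_nonneg_right hiR hx
        have hm0 : (0 : ℝ) < m := by exact_mod_cast (by omega : 0 < m)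
        nlinarith
      refine ⟨?_, key _ (ps_mem hm i).1 ?_⟩
      · simp only [hat, hatOf, if_neg (show ¬ i < 3 * m by omega)]
        refine key _ (ph_mem hm i).1 ?_
        rw [ph_eq hm (by omega)]
        exact sum_ge (f := fun j => ps m N (j - m)) hiN
          (fun j hj1 hj2 => (h m N hm hN _ (by omega) (by omega) (by omega)).2)
          fun j _ => (ps_mem hm _).1
      · rw [ps_eq hm hi]
        exact sum_ge (f := fun j => hat m N (j - m)) hiN
          (fun j hj1 hj2 => (h m N hm hN _ (by omega) (by omega) (by omega)).1)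
          fun j hj => hat_nonneg hm (by have := (mem_Icc.1 hj).1; omega)

/-- The upper deficit seen from one level below, cut off at the horizon. -/
noncomputable def Phi (m N j : ℕ) : ℝ := if j ≤ N then hat m N (j - m) else 0

theorem Phi_nonneg (hm : 200 ≤ m) {j : ℕ} (hj : m + 1 ≤ j) : 0 ≤ Phi m N j := by
  unfold Phi; split_ifs
  · exact hat_nonneg hm (by omega)
  · exact le_rfl

/-- With the dense bound capped by `M`, the lower function just below `2` stays positive. -/
theorem top_gain (M : ℕ) (hM : 1 ≤ M) : ∃ m : ℕ, ∃ γ : ℝ, 200 ≤ m ∧ 0 < γ ∧ ∀ N : ℕ,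
    (2 * M + 4) * m ≤ N → γ ≤ 1 - (∑ r ∈ range (M * (2 * m - 1)), Phi m N (2 * m - 1 + r))
      / ((2 * m - 1 : ℕ) : ℝ) := by
  obtain ⟨c, hc, hdef⟩ := deficit_ge (2 * M + 2) (by omega)
  obtain ⟨k, hk⟩ := exists_nat_ge (40000 / c)
  obtain ⟨m, hm, hkm⟩ : ∃ m, 200 ≤ m ∧ k ≤ m := ⟨k + 200, by omega, by omega⟩
  refine ⟨m, c / 4, hm, by positivity, fun N hN => ?_⟩
  have hmR : (200 : ℝ) ≤ m := by exact_mod_cast hm
  have hmc : 40000 ≤ c * m := by
    rw [div_le_iff₀ hc] at hk
    have : (k : ℝ) ≤ m := by exact_mod_cast hkm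
    nlinarith
  have hN4 : 4 * m ≤ N := by nlinarith
  set a := (2 * M + 2) * m with ha
  have h2a : 2 * m + m ≤ a := by rw [ha]; nlinarith
  have hQ : 2 * m - 1 + M * (2 * m - 1) ≤ a := by
    have : M * (2 * m - 1) ≤ M * (2 * m) := Nat.mul_le_mul_left M (by omega)
    rw [ha, add_mul, mul_comm 2 M, mul_assoc]; omega
  have haN : a + m ≤ N := by
    rw [ha]; rw [add_mul] at hN ⊢; omega
  -- split the sum
  have h1 : ∑ r ∈ range (M * (2 * m - 1)), Phi m N (2 * m - 1 + r)
      ≤ ∑ j ∈ Ico (2 * m - 1) a, Phi m N j := by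
    rw [sum_Ico_eq_sum_range]
    exact sum_le_sum_of_subset_of_nonneg (range_subset_range.2 (by omega))
      fun r _ _ => Phi_nonneg hm (by omega)
  have h2 : ∑ j ∈ Ico (2 * m - 1) a, Phi m N j
      = hat m N (m - 1) + ∑ j ∈ Ico (2 * m) a, hat m N (j - m) := by
    rw [sum_eq_sum_Ico_succ_bot (by omega), show 2 * m - 1 + 1 = 2 * m by omega, Phi,
      if_pos (by omega), show 2 * m - 1 - m = m - 1 by omega]
    congr 1
    exact sum_congr rfl fun j hj => if_pos (by have := (mem_Ico.1 hj).2; omega)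
  have h3 : ∑ j ∈ Ico (2 * m) a, hat m N (j - m) + c * m ≤ 2 * m * ps m N (2 * m) := by
    have he := ps_eq (N := N) hm (le_refl (2 * m))
    push_cast at he
    rw [he]
    have hgain : c * m ≤ ∑ j ∈ Ico a (a + m), hat m N (j - m) := by
      refine le_trans (le_of_eq ?_) (card_nsmul_le_sum _ _ c fun j hj => ?_)
      · rw [nsmul_eq_mul, Nat.card_Ico, show a + m - a = m by omega, mul_comm]
      · have hjm := mem_Ico.1 hj
        refine (hdef m N hm ?_ _ (by omega) (by rw [ha] at hjm; omega)).1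
        rw [add_mul] at hN ⊢; omega
    refine (add_le_add le_rfl hgain).trans ?_
    rw [← sum_union (disjoint_left.2 fun j h1 h2 => by
      have := (mem_Ico.1 h1).2; have := (mem_Ico.1 h2).1; omega)]
    refine sum_le_sum_of_subset_of_nonneg (fun j hj => ?_)
      fun j hj _ => hat_nonneg hm (by have := (mem_Icc.1 hj).1; omega)
    rcases mem_union.1 hj with h | h <;> have := mem_Ico.1 h <;>
      exact mem_Icc.2 ⟨by omega, by omega⟩
  have h4 : 2 * m * ps m N (2 * m) ≤ 2 * m + 8000 := by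
    have h := lower_at_two hm hN4
    nlinarith [(ph_mem (N := N) hm (3 * m)).2]
  have h5 := hat_le (N := N) hm (le_refl (m - 1))
  have hsum : ∑ r ∈ range (M * (2 * m - 1)), Phi m N (2 * m - 1 + r)
      ≤ 2 * m + 16000 - c * m := by linarith [h1.trans h2.le]
  have hd : ((2 * m - 1 : ℕ) : ℝ) = 2 * m - 1 := by
    rw [Nat.cast_sub (by omega)]; push_cast; ring
  rw [hd, one_sub_div (by linarith), le_div_iff₀ (by linarith)]
  nlinarith

end Vale.Agent.P013.Jac
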