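import Vale.Agent.P013.Jac.Gain
import Vale.Agent.P013.Jac.Count

/-! The linear sieve with the truncated discrete pair. -/

namespace Vale.Agent.P013.Jac

open Real Finset

/-- The elements of `P` below `z`. -/
noncomputable def below (P : Finset ℕ) (z : ℝ) : Finset ℕ := P.filter fun p : ℕ => (p : ℝ) < z

theorem below_mono (P : Finset ℕ) {a b : ℝ} (h : a ≤ b) : below P a ⊆ below P b := fun p hp => by
  simp only [below, mem_filter] at hp ⊢; exact ⟨hp.1, hp.2.trans_le h⟩

theorem below_nat (P : Finset ℕ) {z : ℝ} {p : ℕ} (hp : (p : ℝ) ≤ z) :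
    (below P z).filter (fun q => q < p) = below P p := by
  ext q
  simp only [below, mem_filter, Nat.cast_lt]
  exact ⟨fun h => ⟨h.1.1, h.2⟩, fun h => ⟨⟨h.1, (Nat.cast_lt.2 h.2).trans_le hp⟩, h.2⟩⟩

theorem below_below (P : Finset ℕ) {c z : ℝ} (h : c ≤ z) :
    (below P z).filter (fun p : ℕ => (p : ℝ) < c) = below P c := by
  ext q
  simp only [below, mem_filter]
  exact ⟨fun h' => ⟨h'.1.1, h'.2⟩, fun h' => ⟨⟨h'.1, h'.2.trans_le h⟩, h'.2⟩⟩

/-- Summation by parts against a weight controlled on initial segments. -/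
theorem abel {ι : Type*} (T : Finset ι) (wt : ι → ℝ) (j : ι → ℕ) (Φ : ℕ → ℝ) {i N : ℕ} {S : Finset ℕ} {V e : ℝ}
    (hiN : i ≤ N + 1) (hj : ∀ p ∈ T, i ≤ j p ∧ j p ≤ N) (hanti : ∀ a, i ≤ a → Φ (a + 1) ≤ Φ a)
    (hS : S ⊆ Icc i N) (hz : ∀ a, N < a → Φ a = 0)
    (hinner : ∀ l, i ≤ l → l ≤ N →
      ∑ p ∈ T.filter (fun p => j p ≤ l), wt p ≤ V * (((S.filter (· ≤ l)).card : ℝ) / (i : ℝ) + e)) :
    ∑ p ∈ T, wt p * Φ (j p) ≤ V * ((∑ r ∈ S, Φ r) / i + e * Φ i) := by
  have htel : ∀ a, a ≤ N + 1 → ∑ l ∈ Ico a (N + 1), (Φ l - Φ (l + 1)) = Φ a := fun a ha => by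
    have key : ∀ b, a ≤ b → ∑ l ∈ Ico a b, (Φ l - Φ (l + 1)) = Φ a - Φ b := by
      intro b hb
      induction b, hb using Nat.le_induction with
      | base => simp
      | succ b hb ih => rw [sum_Ico_succ_top hb, ih]; ring
    rw [key _ ha, hz (N + 1) (by omega), sub_zero]
  calc ∑ p ∈ T, wt p * Φ (j p)
      = ∑ p ∈ T, ∑ l ∈ Ico i (N + 1), if j p ≤ l then (Φ l - Φ (l + 1)) * wt p else 0 := by
        refine sum_congr rfl fun p hp => ?_
        rw [← sum_filter, ← sum_mul, mul_comm, ← htel (j p) (by have := (hj p hp).2; omega)]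
        congr 2
        ext l
        simp only [mem_filter, mem_Ico]
        have := hj p hp
        omega
    _ = ∑ l ∈ Ico i (N + 1), (Φ l - Φ (l + 1)) * ∑ p ∈ T.filter (fun p => j p ≤ l), wt p := by
        rw [sum_comm]; exact sum_congr rfl fun l _ => by rw [mul_sum, sum_filter]
    _ ≤ ∑ l ∈ Ico i (N + 1), (Φ l - Φ (l + 1)) * (V * (((S.filter (· ≤ l)).card : ℝ) / (i : ℝ) + e)) :=
        sum_le_sum fun l hl => mul_le_mul_of_nonneg_left
          (hinner l (mem_Ico.1 hl).1 (by have := (mem_Ico.1 hl).2; omega))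
          (sub_nonneg.2 (hanti l (mem_Ico.1 hl).1))
    _ = V * ((∑ l ∈ Ico i (N + 1), (Φ l - Φ (l + 1)) * ((S.filter (· ≤ l)).card : ℝ)) / i
          + e * ∑ l ∈ Ico i (N + 1), (Φ l - Φ (l + 1))) := by
        rw [sum_div, mul_sum (a := e), ← sum_add_distrib, mul_sum]
        exact sum_congr rfl fun l _ => by ring
    _ = _ := by
        rw [htel i hiN]
        congr 3
        calc ∑ l ∈ Ico i (N + 1), (Φ l - Φ (l + 1)) * ((S.filter (· ≤ l)).card : ℝ)
            = ∑ l ∈ Ico i (N + 1), ∑ r ∈ S, if r ≤ l then Φ l - Φ (l + 1) else 0 := by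
              refine sum_congr rfl fun l hl => ?_
              rw [← sum_filter, sum_const, nsmul_eq_mul, mul_comm]
          _ = ∑ r ∈ S, Φ r := by
              rw [sum_comm]
              refine sum_congr rfl fun r hr => ?_
              obtain ⟨hr1, hr2⟩ := mem_Icc.1 (hS hr)
              rw [← sum_filter]
              refine Eq.trans (sum_congr ?_ fun _ _ => rfl) (htel r (by omega))
              ext l; simp only [mem_filter, mem_Ico]; omega

theorem card_Icc_filter {i l N : ℕ} (h : l ≤ N) : ((Icc i N).filter (· ≤ l)).card = l + 1 - i := by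
  rw [show (Icc i N).filter (· ≤ l) = Icc i l by ext; simp; omega, Nat.card_Icc]

/-- The data of the sieve: a set `P` of primes above `K^θ`, the dense bound, and counts. -/
structure Setup where
  m : ℕ
  N : ℕ
  P : Finset ℕ
  X : Finset ℤ
  X₀ : ℝ
  ε₀ : ℝ
  R₀ : ℝ
  e : ℝ
  K : ℝ
  θ : ℝ
  hm : 200 ≤ m
  hθ : 0 < θ
  hK : 1 < K
  hX₀ : 0 ≤ X₀
  hε₀ : 0 ≤ ε₀
  hR₀ : 0 ≤ R₀
  he : 0 ≤ e
  hN : (2 * m : ℝ) ≤ N * θ
  hN4 : 4 * m ≤ N
  hP : ∀ p ∈ P, p.Prime ∧ K ^ θ < p
  hdense : ∀ (S : Finset ℕ) (c z : ℝ), K ^ θ ≤ c → c ≤ z → z ≤ K ^ (2 : ℝ) →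
    (∀ p ∈ S, p.Prime ∧ c ≤ p ∧ (p : ℝ) ≤ z) → (V S)⁻¹ ≤ log z / log c + e
  hcount : ∀ D ⊆ P, |cnt X D ∅ - X₀ / dprod D| ≤ ε₀ * X₀ / dprod D + R₀

variable (s : Setup)

/-- The propagated error constant. -/
def Setup.cE : ℝ := s.ε₀ + 20000 * s.e

theorem Setup.prime_sub {T : Finset ℕ} (h : T ⊆ s.P) : ∀ p ∈ T, p.Prime :=
  fun p hp => (s.hP p (h hp)).1

theorem Setup.tail_bound {z c : ℝ} (hc1 : 1 < c) (hcz : c ≤ z) (hz : z ≤ s.K ^ (2 : ℝ)) :
    V (below s.P c) ≤ V (below s.P z) * (log z / log c + s.e) := by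
  set T := below s.P z
  set S := T.filter fun p : ℕ => ¬ (p : ℝ) < c
  have hsub : T ⊆ s.P := filter_subset _ _
  have hS : 0 < V S := V_pos (s.prime_sub ((filter_subset _ _).trans hsub))
  have hsplit : V T = V (below s.P c) * V S := by
    rw [← below_below s.P hcz, V, V, V]
    exact (prod_filter_mul_prod_filter_not T _ _).symm
  have hV0 := V_pos (s.prime_sub (filter_subset (fun p : ℕ => (p : ℝ) < c) s.P))
  have hr : 1 ≤ log z / log c := by
    rw [le_div_iff₀ (log_pos hc1), one_mul]; exact log_le_log (by linarith) hcz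
  have hKθ : 1 < s.K ^ s.θ := one_lt_rpow s.hK s.hθ
  have hinv : (V S)⁻¹ ≤ log z / log c + s.e := by
    rcases le_or_gt (max c (s.K ^ s.θ)) z with h | h
    · refine (s.hdense S (max c (s.K ^ s.θ)) z (le_max_right _ _) h hz fun p hp => ?_).trans ?_
      · obtain ⟨hpT, hpc⟩ := mem_filter.1 hp
        obtain ⟨hpP, hpz⟩ := mem_filter.1 hpT
        exact ⟨(s.hP p hpP).1, max_le (not_lt.1 hpc) (s.hP p hpP).2.le, hpz.le⟩
      · gcongr
        · exact log_nonneg (by linarith)
        · exact log_pos hc1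
        · exact le_max_left _ _
    · have : S = ∅ := filter_eq_empty_iff.2 fun p hp hpc => by
        obtain ⟨hpP, hpz⟩ := mem_filter.1 hp
        rcases max_cases c (s.K ^ s.θ) with ⟨h1, _⟩ | ⟨h1, _⟩ <;> rw [h1] at h
        · linarith
        · linarith [(s.hP p hpP).2]
      simp [this, V]
      have := s.he
      linarith
  calc V (below s.P c) = V T * (V S)⁻¹ := by rw [hsplit, mul_assoc, mul_inv_cancel₀ hS.ne', mul_one]
    _ ≤ _ := mul_le_mul_of_nonneg_left hinv (V_pos (s.prime_sub hsub)).le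

/-- The index of the sub-problem at `p`. -/
noncomputable def Setup.idx (Δ : ℝ) (p : ℕ) : ℕ := ⌊(s.m : ℝ) * log Δ / log p⌋₊

theorem Setup.idx_mem {Δ z : ℝ} {i : ℕ} (hΔ : Δ ≤ s.K ^ (2 : ℝ)) (hΔ1 : 1 ≤ Δ)
    (hi : (i : ℝ) * log z ≤ s.m * log Δ) {p : ℕ} (hp : p ∈ below s.P z) :
    i ≤ s.idx Δ p ∧ s.idx Δ p ≤ s.N ∧
      ((s.idx Δ p : ℝ) * log p ≤ s.m * log Δ) := by
  obtain ⟨hpP, hpz⟩ := mem_filter.1 hp
  obtain ⟨hpp, hpK⟩ := s.hP p hpP
  have hp1 : (1 : ℝ) < p := by exact_mod_cast hpp.one_lt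
  have hlp : 0 < log (p : ℝ) := log_pos hp1
  have hlz : log p ≤ log z := log_le_log (by linarith) hpz.le
  have hnum : 0 ≤ (s.m : ℝ) * log Δ := mul_nonneg s.m.cast_nonneg (log_nonneg hΔ1)
  refine ⟨Nat.le_floor ?_, Nat.floor_le_of_le ?_, ?_⟩
  · rw [le_div_iff₀ hlp]
    exact (mul_le_mul_of_nonneg_left hlz i.cast_nonneg).trans hi
  · have hK0 : 0 < s.K := by linarith [s.hK]
    have h1 : s.θ * log s.K ≤ log (p : ℝ) := by
      rw [← log_rpow hK0]; exact log_le_log (rpow_pos_of_pos hK0 _) hpK.le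
    have h2 : log Δ ≤ 2 * log s.K := by
      rw [← log_rpow hK0]; exact log_le_log (by linarith) hΔ
    rw [div_le_iff₀ hlp]
    have hlK : 0 < log s.K := log_pos s.hK
    calc (s.m : ℝ) * log Δ ≤ 2 * s.m * log s.K := by
          linarith [mul_le_mul_of_nonneg_left h2 (Nat.cast_nonneg (α := ℝ) s.m)]
      _ ≤ s.N * s.θ * log s.K := mul_le_mul_of_nonneg_right s.hN hlK.le
      _ ≤ s.N * log (p : ℝ) := by
          rw [mul_assoc]; exact mul_le_mul_of_nonneg_left h1 s.N.cast_nonneg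
  · have := Nat.floor_le (div_nonneg hnum hlp.le)
    rwa [le_div_iff₀ hlp] at this

theorem Setup.inner {Δ z : ℝ} {i l : ℕ} (hi1 : 1 ≤ i) (hz1 : 1 < z) (hz : z ≤ s.K ^ (2 : ℝ))
    (hi : (i : ℝ) * log z ≤ s.m * log Δ) (hl : i ≤ l) :
    ∑ p ∈ (below s.P z).filter (fun p => s.idx Δ p ≤ l),
        1 / (p : ℝ) * V ((below s.P z).filter fun q => q < p)
      ≤ V (below s.P z) * (((l + 1 - i : ℕ) : ℝ) / i + s.e) := by
  set T := below s.P z
  have hVT : 0 < V T := V_pos (s.prime_sub (filter_subset _ _))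
  have hlz : 0 < log z := log_pos hz1
  have hi0 : (0 : ℝ) < i := by exact_mod_cast hi1
  have hml : 0 < (s.m : ℝ) * log Δ := lt_of_lt_of_le (mul_pos hi0 hlz) hi
  have hl0 : (0 : ℝ) < (l : ℝ) + 1 := by positivity
  have hLi : 0 ≤ ((l + 1 - i : ℕ) : ℝ) / i := by positivity
  set c := exp ((s.m : ℝ) * log Δ / (l + 1)) with hc
  have hsub : T.filter (fun p => s.idx Δ p ≤ l) ⊆ T.filter (fun p : ℕ => c ≤ p) := by
    intro p hp
    obtain ⟨hpT, hpl⟩ := mem_filter.1 hp
    have hpp := (s.hP p (filter_subset _ _ hpT)).1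
    have hlp : 0 < log (p : ℝ) := log_pos (by exact_mod_cast hpp.one_lt)
    refine mem_filter.2 ⟨hpT, ?_⟩
    have h := (Nat.lt_floor_add_one ((s.m : ℝ) * log Δ / log (p : ℝ))).le.trans
      (add_le_add_left (show ((s.idx Δ p : ℕ) : ℝ) ≤ l by exact_mod_cast hpl) 1)
    rw [hc, ← exp_log (show (0 : ℝ) < p by exact_mod_cast hpp.pos), exp_le_exp,
      div_le_iff₀ hl0]
    rw [div_le_iff₀ hlp] at h
    linarith
  refine (sum_le_sum_of_subset_of_nonneg hsub fun p _ _ => ?_).trans ?_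
  · have := V_pos (s.prime_sub ((filter_subset (fun q => q < p) T).trans (filter_subset _ _)))
    positivity
  rw [V_tail]
  rcases le_or_gt c z with hcz | hcz
  · have hc1 : 1 < c := one_lt_exp_iff.2 (by positivity)
    have hb := s.tail_bound hc1 hcz hz
    rw [below_below s.P hcz]
    have hlc : log c = (s.m : ℝ) * log Δ / (l + 1) := log_exp _
    have hratio : log z / log c ≤ ((l : ℝ) + 1) / i := by
      rw [hlc, div_div_eq_mul_div, div_le_div_iff₀ hml hi0]
      nlinarith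
    have e : ((l + 1 - i : ℕ) : ℝ) / i = ((l : ℝ) + 1) / i - 1 := by
      rw [Nat.cast_sub (by omega), sub_div, div_self hi0.ne']; push_cast; rfl
    rw [e]
    have := mul_le_mul_of_nonneg_left (add_le_add_left hratio s.e) hVT.le
    linarith
  · have : T.filter (fun p : ℕ => (p : ℝ) < c) = T :=
      filter_true_of_mem fun p hp => (mem_filter.1 hp).2.trans hcz
    rw [this, sub_self]
    have := s.he
    positivity

theorem ps_anti {m N i j : ℕ} (hm : 200 ≤ m) (hi : 2 * m ≤ i) (hij : i ≤ j) :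
    ps m N j ≤ ps m N i := by
  have hsub : ∑ l ∈ Icc j N, hat m N (l - m) ≤ ∑ l ∈ Icc i N, hat m N (l - m) :=
    sum_le_sum_of_subset_of_nonneg (Icc_subset_Icc_left hij) fun l hl _ =>
      hat_nonneg hm (by have := (mem_Icc.1 hl).1; omega)
  rw [← ps_eq hm hi, ← ps_eq hm (hi.trans hij)] at hsub
  have h1 : (i : ℝ) ≤ j := by exact_mod_cast hij
  have h2 : (0 : ℝ) < i := by exact_mod_cast (by omega : 0 < i)
  nlinarith [(ps_mem (N := N) hm j).1]

/-- The upper bound at index `i`. -/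
def Setup.Upper (D : Finset ℕ) (z Δ : ℝ) (i : ℕ) : Prop :=
  cnt s.X D (below s.P z) ≤ s.X₀ / dprod D * (V (below s.P z) * (1 + hat s.m s.N i)
    + s.cE * W (below s.P z) + 9000 * s.e * V (below s.P z)) + s.R₀ * Δ * W (below s.P z)

/-- One upper step gives the lower bound, with an arbitrary cap on the partial sums. -/
theorem Setup.lower_step {D : Finset ℕ} {z Δ : ℝ} {i : ℕ} {S : Finset ℕ} (hD : D ⊆ s.P)
    (hDz : ∀ q ∈ D, z ≤ q) (hΔ1 : 1 ≤ Δ)
    (hΔ : Δ ≤ s.K ^ (2 : ℝ)) (hi0 : 2 * s.m - 1 ≤ i) (hiN : i ≤ s.N + 1)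
    (hi : (i : ℝ) * log z ≤ s.m * log Δ)
    (hS : S ⊆ Icc i s.N) (hcap : ∀ l, i ≤ l → l ≤ s.N → ∑ p ∈ (below s.P z).filter (fun p => s.idx Δ p ≤ l),
        1 / (p : ℝ) * V ((below s.P z).filter fun q => q < p)
      ≤ V (below s.P z) * (((S.filter (· ≤ l)).card : ℝ) / i + s.e))
    (hup : ∀ p ∈ below s.P z,
      s.Upper (insert p D) (p : ℝ) (Δ / p) (s.idx Δ p - s.m)) :
    s.X₀ / dprod D * (V (below s.P z) * (1 - (∑ r ∈ S, Phi s.m s.N r) / i)
      - s.cE * W (below s.P z)) - s.R₀ * Δ * W (below s.P z) ≤ cnt s.X D (below s.P z) := by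
  set T := below s.P z with hT
  have hm := s.hm
  have hTP : T ⊆ s.P := filter_subset _ _
  have hdpos : 0 < dprod D := prod_pos fun q hq => by exact_mod_cast (s.hP q (hD hq)).1.pos
  set Y := s.X₀ / dprod D with hY
  have hY0 : 0 ≤ Y := div_nonneg s.hX₀ hdpos.le
  have hjm : ∀ p ∈ T, i ≤ s.idx Δ p ∧ s.idx Δ p ≤ s.N := fun p hp =>
    ⟨(s.idx_mem hΔ hΔ1 hi hp).1, (s.idx_mem hΔ hΔ1 hi hp).2.1⟩
  have hterm : ∀ p ∈ T, cnt s.X (insert p D) (T.filter fun q => q < p)
      ≤ Y * (1 / (p : ℝ) * V (T.filter fun q => q < p) * Phi s.m s.N (s.idx Δ p)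
          + 1 / (p : ℝ) * V (T.filter fun q => q < p) * (1 + 9000 * s.e)
          + s.cE * (1 / (p : ℝ) * W (T.filter fun q => q < p)))
        + s.R₀ * Δ * (1 / (p : ℝ) * W (T.filter fun q => q < p)) := by
    intro p hp
    have hpz : (p : ℝ) < z := (mem_filter.1 hp).2
    have hpD : p ∉ D := fun h => absurd (hDz p h) (not_le.2 hpz)
    have h := hup p hp
    unfold Setup.Upper at h
    rw [← below_nat s.P hpz.le] at h
    refine h.trans (le_of_eq ?_)
    have hd : dprod (insert p D) = p * dprod D := prod_insert hpD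
    rw [hd, Phi, if_pos (hjm p hp).2, hY]
    ring
  have hW := W_expand T
  have hV := V_expand T
  have habel := abel T (fun p => 1 / (p : ℝ) * V (T.filter fun q => q < p)) (s.idx Δ)
    (Phi s.m s.N) (i := i) (N := s.N) (S := S) (V := V T) (e := s.e) hiN hjm
    (fun a ha => by
      unfold Phi
      split_ifs with h1 h2 h2
      · exact hat_anti hm (by omega) (by omega)
      · omega
      · exact hat_nonneg hm (by omega)
      · exact le_rfl)
    hS (fun a ha => if_neg (by omega)) hcap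
  have hsum := sum_le_sum hterm
  rw [sum_add_distrib, ← mul_sum, sum_add_distrib, sum_add_distrib, ← sum_mul, hV, ← mul_sum, hW,
    ← mul_sum, hW] at hsum
  have hb := buchstab s.X D T
  have hN0 := (abs_le.1 (s.hcount D hD)).1
  have hVT : 0 ≤ V T := (V_pos (s.prime_sub hTP)).le
  have hVT1 : V T ≤ 1 := V_le_one (s.prime_sub hTP)
  have hPhi : Phi s.m s.N i ≤ 8000 := by
    unfold Phi; split_ifs
    · exact hat_le hm (by omega)
    · norm_num
  have he := s.he
  have hcore : Y * (V T * (1 - (∑ r ∈ S, Phi s.m s.N r) / i) - s.cE * W T)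
      ≤ Y * (1 - s.ε₀ - ((∑ p ∈ T, 1 / (p : ℝ) * V (T.filter fun q => q < p) * Phi s.m s.N (s.idx Δ p))
        + (1 - V T) * (1 + 9000 * s.e) + s.cE * (W T - 1))) := by
    refine mul_le_mul_of_nonneg_left ?_ hY0
    have h1 : V T * (s.e * Phi s.m s.N i) ≤ V T * (s.e * 8000) :=
      mul_le_mul_of_nonneg_left (mul_le_mul_of_nonneg_left hPhi he) hVT
    have h2 : V T * (s.e * 8000) ≤ 1 * (s.e * 8000) :=
      mul_le_mul_of_nonneg_right hVT1 (by positivity)
    have h3 : (1 - V T) * (9000 * s.e) ≤ 1 * (9000 * s.e) :=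
      mul_le_mul_of_nonneg_right (by linarith) (by positivity)
    have hcE : s.cE = s.ε₀ + 20000 * s.e := rfl
    linarith
  have hR : s.R₀ ≤ s.R₀ * Δ := le_mul_of_one_le_right s.hR₀ hΔ1
  have e1 : s.ε₀ * s.X₀ / dprod D = s.ε₀ * Y := by rw [hY]; ring
  rw [e1] at hN0
  rw [← hY] at hN0
  linarith

/-- One lower step gives the upper bound from `3` on. -/
theorem Setup.upper_step {D : Finset ℕ} {z Δ : ℝ} {i : ℕ} (hD : D ⊆ s.P)
    (hDz : ∀ q ∈ D, z ≤ q) (hz1 : 1 < z) (hz : z ≤ s.K ^ (2 : ℝ)) (hΔ1 : 1 ≤ Δ)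
    (hΔ : Δ ≤ s.K ^ (2 : ℝ)) (hi0 : 3 * s.m ≤ i) (hiN : i ≤ s.N + 1)
    (hi : (i : ℝ) * log z ≤ s.m * log Δ)
    (hlow : ∀ p ∈ below s.P z, s.X₀ / dprod (insert p D) * (V (below s.P p)
      * (1 - ps s.m s.N (s.idx Δ p - s.m)) - s.cE * W (below s.P p))
      - s.R₀ * (Δ / p) * W (below s.P p) ≤ cnt s.X (insert p D) (below s.P p)) :
    cnt s.X D (below s.P z) ≤ s.X₀ / dprod D * (V (below s.P z) * (1 + hat s.m s.N i)
      + s.cE * W (below s.P z)) + s.R₀ * Δ * W (below s.P z) := by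
  set T := below s.P z with hT
  have hm := s.hm
  have hTP : T ⊆ s.P := filter_subset _ _
  have hdpos : 0 < dprod D := prod_pos fun q hq => by exact_mod_cast (s.hP q (hD hq)).1.pos
  set Y := s.X₀ / dprod D with hY
  have hY0 : 0 ≤ Y := div_nonneg s.hX₀ hdpos.le
  let Ψ : ℕ → ℝ := fun a => if a ≤ s.N then ps s.m s.N (a - s.m) else 0
  have hjm : ∀ p ∈ T, i ≤ s.idx Δ p ∧ s.idx Δ p ≤ s.N := fun p hp =>
    ⟨(s.idx_mem hΔ hΔ1 hi hp).1, (s.idx_mem hΔ hΔ1 hi hp).2.1⟩
  have hterm : ∀ p ∈ T, Y * (1 / (p : ℝ) * V (T.filter fun q => q < p)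
          - 1 / (p : ℝ) * V (T.filter fun q => q < p) * Ψ (s.idx Δ p)
          - s.cE * (1 / (p : ℝ) * W (T.filter fun q => q < p)))
        - s.R₀ * Δ * (1 / (p : ℝ) * W (T.filter fun q => q < p))
      ≤ cnt s.X (insert p D) (T.filter fun q => q < p) := by
    intro p hp
    have hpz : (p : ℝ) < z := (mem_filter.1 hp).2
    have hpD : p ∉ D := fun h => absurd (hDz p h) (not_le.2 hpz)
    have h := hlow p hp
    rw [← below_nat s.P hpz.le] at h
    refine le_trans (le_of_eq ?_) h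
    have hd : dprod (insert p D) = p * dprod D := prod_insert hpD
    simp only [Ψ]
    rw [hd, if_pos (hjm p hp).2, hY]
    ring
  have hW := W_expand T
  have hV := V_expand T
  have habel := abel T (fun p => 1 / (p : ℝ) * V (T.filter fun q => q < p)) (s.idx Δ)
    Ψ (i := i) (N := s.N) (S := Icc i s.N) (V := V T) (e := s.e) hiN hjm
    (fun a ha => by
      simp only [Ψ]
      split_ifs with h1 h2 h2
      · exact ps_anti hm (by omega) (by omega)
      · omega
      · exact (ps_mem hm _).1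
      · exact le_rfl)
    subset_rfl (fun a ha => if_neg (by omega)) (fun l hl hlN => by
      refine (s.inner (by omega) hz1 hz hi hl).trans (le_of_eq ?_)
      rw [card_Icc_filter hlN])
  have hph : (∑ r ∈ Icc i s.N, Ψ r) / (i : ℝ) = hat s.m s.N i := by
    simp only [hat, hatOf, if_neg (show ¬ i < 3 * s.m by omega)]
    rw [div_eq_iff (by exact_mod_cast (by omega : i ≠ 0)), mul_comm, ph_eq hm hi0]
    exact sum_congr rfl fun r hr => if_pos (mem_Icc.1 hr).2
  rw [hph] at habel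
  have hsum := sum_le_sum hterm
  rw [sum_sub_distrib, ← mul_sum, sum_sub_distrib, sum_sub_distrib, hV, ← mul_sum, hW,
    ← mul_sum, hW] at hsum
  have hb := buchstab s.X D T
  have hN0 := (abs_le.1 (s.hcount D hD)).2
  have hVT : 0 ≤ V T := (V_pos (s.prime_sub hTP)).le
  have hVT1 : V T ≤ 1 := V_le_one (s.prime_sub hTP)
  have hΨ : Ψ i ≤ 2400 := by
    simp only [Ψ]; split_ifs
    · exact (ps_mem hm _).2
    · norm_num
  have he := s.he
  have hcore : Y * (1 + s.ε₀ - (1 - V T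
        - (∑ p ∈ T, 1 / (p : ℝ) * V (T.filter fun q => q < p) * Ψ (s.idx Δ p))
        - s.cE * (W T - 1)))
      ≤ Y * (V T * (1 + hat s.m s.N i) + s.cE * W T) := by
    refine mul_le_mul_of_nonneg_left ?_ hY0
    have h1 : V T * (s.e * Ψ i) ≤ V T * (s.e * 2400) :=
      mul_le_mul_of_nonneg_left (mul_le_mul_of_nonneg_left hΨ he) hVT
    have h2 : V T * (s.e * 2400) ≤ 1 * (s.e * 2400) :=
      mul_le_mul_of_nonneg_right hVT1 (by positivity)
    have hcE : s.cE = s.ε₀ + 20000 * s.e := rfl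
    linarith
  have hR : s.R₀ ≤ s.R₀ * Δ := le_mul_of_one_le_right s.hR₀ hΔ1
  have e1 : s.ε₀ * s.X₀ / dprod D = s.ε₀ * Y := by rw [hY]; ring
  rw [e1, ← hY] at hN0
  linarith

/-- The lower bound from `2` on and the upper bound everywhere. -/
theorem Setup.bounds : ∀ (n : ℕ) (D : Finset ℕ) (z Δ : ℝ) (i : ℕ), (below s.P z).card = n →
    D ⊆ s.P → (∀ q ∈ D, z ≤ q) → 1 < z → z ≤ s.K ^ (2 : ℝ) → 1 ≤ Δ → Δ ≤ s.K ^ (2 : ℝ) →
    (i : ℝ) * log z ≤ s.m * log Δ →
    (2 * s.m ≤ i → s.X₀ / dprod D * (V (below s.P z) * (1 - ps s.m s.N i)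
      - s.cE * W (below s.P z)) - s.R₀ * Δ * W (below s.P z) ≤ cnt s.X D (below s.P z)) ∧
    (s.m - 1 ≤ i → s.Upper D z Δ i) := by
  intro n
  induction n using Nat.strong_induction_on with
  | _ n ih =>
    intro D z Δ i hn hD hDz hz1 hz hΔ1 hΔ hi
    have hm := s.hm
    have hsub : ∀ {z' : ℝ}, z' ≤ z → ∀ {i' : ℕ}, (i' : ℝ) * log z' ≤ s.m * log Δ → s.m ≤ i' →
        ∀ p ∈ below s.P z',
        (∀ (_ : 2 * s.m ≤ s.idx Δ p - s.m),
          s.X₀ / dprod (insert p D) * (V (below s.P p) * (1 - ps s.m s.N (s.idx Δ p - s.m))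
            - s.cE * W (below s.P p)) - s.R₀ * (Δ / p) * W (below s.P p)
            ≤ cnt s.X (insert p D) (below s.P p)) ∧
        (s.m - 1 ≤ s.idx Δ p - s.m → s.Upper (insert p D) (p : ℝ) (Δ / p) (s.idx Δ p - s.m)) := by
      intro z' hz' i' hi' hmi p hp
      obtain ⟨hpP, hpz⟩ := mem_filter.1 hp
      have hpp := (s.hP p hpP).1
      obtain ⟨h1, -, h3⟩ := s.idx_mem hΔ hΔ1 hi' hp
      have hp1 : (1 : ℝ) < p := by exact_mod_cast hpp.one_lt
      have hlp : 0 < log (p : ℝ) := log_pos hp1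
      have hlt : (below s.P (p : ℝ)).card < n := by
        rw [← hn]
        refine card_lt_card ⟨below_mono _ (hpz.le.trans hz'), fun h => ?_⟩
        exact lt_irrefl (p : ℝ) (mem_filter.1 (h (mem_filter.2 ⟨hpP, hpz.trans_le hz'⟩))).2
      have hpΔ : (p : ℝ) ≤ Δ := by
        rw [← log_le_log_iff (by linarith) (by linarith)]
        have : (s.m : ℝ) * log p ≤ s.m * log Δ := le_trans
          (mul_le_mul_of_nonneg_right (by exact_mod_cast hmi.trans h1) hlp.le) h3
        exact le_of_mul_le_mul_left this (by exact_mod_cast (by omega : 0 < s.m))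
      have hlev : ((s.idx Δ p - s.m : ℕ) : ℝ) * log p ≤ s.m * log (Δ / p) := by
        rw [Nat.cast_sub (hmi.trans h1), log_div (by linarith) (by linarith)]
        linarith
      exact ih _ hlt (insert p D) p (Δ / p) _ rfl (insert_subset hpP hD)
        (fun q hq => (mem_insert.1 hq).elim (fun h => h ▸ le_rfl)
          fun h => (hpz.le.trans hz').trans (hDz q h))
        hp1 ((hpz.le.trans hz').trans hz) (by rwa [le_div_iff₀ (by linarith), one_mul])
        ((div_le_self (by linarith) hp1.le).trans hΔ) hlev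
    -- for large indices the sifting set is empty
    have hbig : ∀ {z' : ℝ}, z' ≤ z → ∀ {i' : ℕ}, (i' : ℝ) * log z' ≤ s.m * log Δ → s.N + 1 < i' →
        below s.P z' = ∅ := by
      intro z' _ i' hi' hN
      refine eq_empty_of_forall_notMem fun p hp => ?_
      obtain ⟨h1, h2, -⟩ := s.idx_mem hΔ hΔ1 hi' hp
      omega
    have hdpos : 0 < dprod D := prod_pos fun q hq => by exact_mod_cast (s.hP q (hD hq)).1.pos
    have hY0 : 0 ≤ s.X₀ / dprod D := div_nonneg s.hX₀ hdpos.le
    have he := s.he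
    have hempty : ∀ {z' : ℝ}, below s.P z' = ∅ →
        s.X₀ / dprod D * (1 - s.cE) - s.R₀ * Δ ≤ cnt s.X D (below s.P z') ∧
        cnt s.X D (below s.P z') ≤ s.X₀ / dprod D * (1 + s.cE) + s.R₀ * Δ := by
      intro z' h0
      rw [h0]
      have h := abs_le.1 (s.hcount D hD)
      have e1 : s.ε₀ * s.X₀ / dprod D = s.X₀ / dprod D * s.ε₀ := by ring
      rw [e1] at h
      have hcE : s.X₀ / dprod D * s.ε₀ ≤ s.X₀ / dprod D * s.cE :=
        mul_le_mul_of_nonneg_left (le_add_of_nonneg_right (by positivity)) hY0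
      have := le_mul_of_one_le_right s.hR₀ hΔ1
      constructor <;> linarith [h.1, h.2]
    -- the upper bound from `3` on
    have hupper3 : ∀ {z' : ℝ}, 1 < z' → z' ≤ z → ∀ {i' : ℕ}, 3 * s.m ≤ i' →
        (i' : ℝ) * log z' ≤ s.m * log Δ → cnt s.X D (below s.P z')
          ≤ s.X₀ / dprod D * (V (below s.P z') * (1 + hat s.m s.N i') + s.cE * W (below s.P z'))
            + s.R₀ * Δ * W (below s.P z') := by
      intro z' hz'1 hz' i' h3 hi'
      rcases le_or_gt i' (s.N + 1) with hN | hN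
      · exact s.upper_step hD (fun q hq => hz'.trans (hDz q hq)) hz'1 (hz'.trans hz) hΔ1 hΔ h3 hN hi'
          fun p hp => (hsub hz' hi' (by omega) p hp).1 (by
            have := (s.idx_mem hΔ hΔ1 hi' hp).1; omega)
      · have h0 := hbig hz' hi' hN
        refine (hempty h0).2.trans ?_
        rw [h0]
        simp only [V, W, prod_empty, one_mul, mul_one]
        have := hat_nonneg (N := s.N) hm (show 1 ≤ i' by omega)
        nlinarith
    refine ⟨fun h2 => ?_, fun h1 => ?_⟩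
    · rcases le_or_gt i (s.N + 1) with hN | hN
      · have h := s.lower_step (S := Icc i s.N) hD hDz hΔ1 hΔ (by omega) hN hi subset_rfl
          (fun l hl hlN => by
            refine (s.inner (by omega) hz1 hz hi hl).trans (le_of_eq ?_)
            rw [card_Icc_filter hlN])
          fun p hp => (hsub le_rfl hi (by omega) p hp).2 (by
            have := (s.idx_mem hΔ hΔ1 hi hp).1; omega)
        have hS : (∑ r ∈ Icc i s.N, Phi s.m s.N r) / (i : ℝ) = ps s.m s.N i := by
          rw [div_eq_iff (by exact_mod_cast (by omega : i ≠ 0)), mul_comm (ps _ _ _), ps_eq hm h2]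
          exact sum_congr rfl fun r hr => if_pos (mem_Icc.1 hr).2
        rwa [hS] at h
      · have h0 := hbig le_rfl hi hN
        refine le_trans ?_ (hempty h0).1
        rw [h0]
        simp only [V, W, prod_empty, one_mul, mul_one]
        have := (ps_mem (N := s.N) hm i).1
        nlinarith
    · unfold Setup.Upper
      rcases le_or_gt (3 * s.m) i with h3 | h3
      · refine (hupper3 hz1 le_rfl h3 hi).trans ?_
        have : 0 ≤ s.X₀ / dprod D * (9000 * s.e * V (below s.P z)) :=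
          mul_nonneg hY0 (mul_nonneg (by positivity) (V_pos (s.prime_sub (filter_subset _ _))).le)
        linarith
      · set z' := min z (exp (log Δ / 3)) with hz'
        have hlz : 0 < log z := log_pos hz1
        have hi0 : (0 : ℝ) < i := by exact_mod_cast (by omega : 0 < i)
        have hm0 : (0 : ℝ) < s.m := by exact_mod_cast (by omega : 0 < s.m)
        have hlΔ : 0 < log Δ := pos_of_mul_pos_right (lt_of_lt_of_le (mul_pos hi0 hlz) hi) hm0.le
        have hz'1 : 1 < z' := lt_min hz1 (one_lt_exp_iff.2 (by linarith))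
        have hz'z : z' ≤ z := min_le_left _ _
        have hlz' : log z' ≤ log Δ / 3 := by
          rw [← log_exp (log Δ / 3)]; exact log_le_log (by linarith) (min_le_right _ _)
        have h3' : ((3 * s.m : ℕ) : ℝ) * log z' ≤ s.m * log Δ := by
          push_cast
          linarith [mul_le_mul_of_nonneg_left hlz' hm0.le]
        have hb := hupper3 hz'1 hz'z le_rfl h3'
        have hsubT : below s.P z' ⊆ below s.P z := below_mono _ hz'z
        refine (cnt_mono s.X D hsubT).trans (hb.trans ?_)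
        have hVz := V_pos (s.prime_sub (T := below s.P z) (filter_subset _ _))
        have hWle := W_mono hsubT
        have hcE : 0 ≤ s.cE := by unfold Setup.cE; linarith [s.hε₀, he]
        have hA := hat_nonneg (N := s.N) hm (show 1 ≤ 3 * s.m by omega)
        have hA2 := hat_le (N := s.N) hm (show s.m - 1 ≤ 3 * s.m by omega)
        have hkey : V (below s.P z') * (1 + hat s.m s.N (3 * s.m))
            ≤ V (below s.P z) * (1 + hat s.m s.N i) + 9000 * s.e * V (below s.P z) := by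
          have h4 := mul_le_mul_of_nonneg_right (s.tail_bound hz'1 hz'z hz)
            (show 0 ≤ 1 + hat s.m s.N (3 * s.m) by linarith)
          refine h4.trans ?_
          have hi' : hat s.m s.N i = 3 * s.m * (1 + hat s.m s.N (3 * s.m)) / i - 1 := by
            simp [hat, hatOf, h3]
          have hrat : log z / log z' ≤ 3 * s.m / i := by
            rcases min_choice z (exp (log Δ / 3)) with h | h
            · rw [hz', h, div_self hlz.ne', le_div_iff₀ hi0]
              exact_mod_cast (by omega : 1 * i ≤ 3 * s.m)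
            · rw [hz', h, log_exp, div_div_eq_mul_div, div_le_div_iff₀ hlΔ hi0]
              linarith
          have h5 : log z / log z' * (1 + hat s.m s.N (3 * s.m))
              ≤ 3 * s.m / i * (1 + hat s.m s.N (3 * s.m)) :=
            mul_le_mul_of_nonneg_right hrat (by linarith)
          have h6 : s.e * (1 + hat s.m s.N (3 * s.m)) ≤ s.e * 9000 :=
            mul_le_mul_of_nonneg_left (by linarith) he
          have e : 3 * (s.m : ℝ) / i * (1 + hat s.m s.N (3 * s.m)) = 1 + hat s.m s.N i := by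
            rw [hi']; ring
          have h7 := mul_le_mul_of_nonneg_left (add_le_add h5 h6) hVz.le
          rw [e] at h7
          linarith
        refine add_le_add (mul_le_mul_of_nonneg_left ?_ hY0)
          (mul_le_mul_of_nonneg_left hWle (mul_nonneg s.hR₀ (by linarith)))
        linarith [mul_le_mul_of_nonneg_left hWle hcE]

end Vale.Agent.P013.Jac
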