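import Vale.Agent.P013.Jac.Real

/-!
A discrete truncated pair of linear sieve functions, given by their deficits `ps` (lower function
`1 - ps`) and `hat` (upper function `1 + hat`) at the points `i / m`, and the exact identity which
shows that the lower function at `2` is at least `-O(1 / m)`.
-/

namespace Vale.Agent.P013.Jac

open Real Finset Filter Topology

variable (m N : ℕ)

/-- The upper deficit, continued below `3` by the law `A / s - 1`. -/
noncomputable def hatOf (φ : ℕ → ℝ) (l : ℕ) : ℝ :=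
  if l < 3 * m then 3 * m * (1 + φ (3 * m)) / l - 1 else φ l

/-- One step of the recursion. -/
noncomputable def step (x : (ℕ → ℝ) × (ℕ → ℝ)) : (ℕ → ℝ) × (ℕ → ℝ) :=
  (fun i => if i < 2 * m then 0 else (∑ j ∈ Icc i N, hatOf m x.2 (j - m)) / i,
   fun i => if i < 3 * m then 0 else (∑ j ∈ Icc i N, x.1 (j - m)) / i)

/-- Iterates of the recursion. -/
noncomputable def iter (n : ℕ) : (ℕ → ℝ) × (ℕ → ℝ) := (step m N)^[n] (0, 0)

/-- The lower deficit. -/
noncomputable def ps (i : ℕ) : ℝ := ⨆ n, (iter m N n).1 i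

/-- The upper deficit from `3` on. -/
noncomputable def ph (i : ℕ) : ℝ := ⨆ n, (iter m N n).2 i

/-- The upper deficit. -/
noncomputable def hat (l : ℕ) : ℝ := hatOf m (ph m N) l

/-- The weight. -/
noncomputable def w (i : ℕ) : ℝ := ((m : ℝ) / (m + 1)) ^ i / ((m : ℝ) / (m + 1)) ^ (3 * m)

theorem iter_succ (n : ℕ) : iter m N (n + 1) = step m N (iter m N n) :=
  Function.iterate_succ_apply' _ _ _

variable {m N}

theorem hatOf_mono {φ ψ : ℕ → ℝ} (h : ∀ i, φ i ≤ ψ i) (l : ℕ) : hatOf m φ l ≤ hatOf m ψ l := by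
  unfold hatOf
  split_ifs with hl
  · rcases Nat.eq_zero_or_pos l with rfl | hl0
    · simp
    · gcongr
      exact h _
  · exact h l

theorem hatOf_nonneg {φ : ℕ → ℝ} (h : ∀ i, 0 ≤ φ i) {l : ℕ} (hl : 1 ≤ l) : 0 ≤ hatOf m φ l := by
  unfold hatOf
  split_ifs with hlm
  · have h1 : (l : ℝ) ≤ 3 * m := by exact_mod_cast hlm.le
    have : (0 : ℝ) < l := by exact_mod_cast hl
    rw [sub_nonneg, le_div_iff₀ this, one_mul]
    nlinarith [h (3 * m)]
  · exact h l

theorem step_mono {x y : (ℕ → ℝ) × (ℕ → ℝ)} (h : x ≤ y) : step m N x ≤ step m N y := by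
  refine ⟨fun i => ?_, fun i => ?_⟩ <;> simp only [step] <;> split_ifs
  · exact le_rfl
  · gcongr with j; exact hatOf_mono h.2 _
  · exact le_rfl
  · gcongr with j; exact h.1 _

theorem iter_one_nonneg (hm : 1 ≤ m) : (0, 0) ≤ step m N (0, 0) := by
  refine ⟨fun i => ?_, fun i => ?_⟩ <;> simp only [step] <;> split_ifs
  · exact le_rfl
  · refine div_nonneg (sum_nonneg fun j hj => hatOf_nonneg (fun _ => le_rfl) ?_) i.cast_nonneg
    have := (mem_Icc.1 hj).1
    omega
  · exact le_rfl
  · simp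

theorem iter_mono (hm : 1 ≤ m) : Monotone (iter m N) :=
  monotone_nat_of_le_succ fun n => by
    induction n with
    | zero => rw [iter_succ]; exact iter_one_nonneg hm
    | succ n ih => rw [iter_succ m N (n + 1)]; nth_rw 1 [iter_succ]; exact step_mono ih

theorem q_pos (hm : 1 ≤ m) : (0 : ℝ) < (m : ℝ) / (m + 1) := by
  have : (0 : ℝ) < m := by exact_mod_cast hm
  positivity

theorem w_pos (hm : 1 ≤ m) (i : ℕ) : 0 < w m i := by
  have := q_pos hm
  unfold w; positivity

theorem w_three : w m (3 * m) = 1 ∨ m = 0 := by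
  rcases Nat.eq_zero_or_pos m with h | h
  · exact .inr h
  · exact .inl (div_self (pow_pos (q_pos h) _).ne')

theorem geom_le (hm : 1 ≤ m) (a b : ℕ) : ∑ l ∈ Icc a b, w m l ≤ ((m : ℝ) + 1) * w m a := by
  have key : ∀ c, a ≤ c → ∑ l ∈ Ico a c, w m l = ((m : ℝ) + 1) * (w m a - w m c) := by
    intro c hc
    induction c, hc using Nat.le_induction with
    | base => simp
    | succ c hc ih =>
      rw [sum_Ico_succ_top hc, ih]
      have : w m (c + 1) = w m c * ((m : ℝ) / (m + 1)) := by unfold w; rw [pow_succ]; ring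
      rw [this]
      field_simp
      ring
  rcases le_or_gt a (b + 1) with h | h
  · rw [show Icc a b = Ico a (b + 1) from by ext; simp, key _ h]
    nlinarith [w_pos hm (b + 1)]
  · rw [Icc_eq_empty (by omega), sum_empty]
    nlinarith [w_pos hm a]

theorem one_add_inv_pow_le (hm : 1 ≤ m) : (1 + 1 / (m : ℝ)) ^ m ≤ exp 1 := by
  have h0 : (0 : ℝ) < m := by exact_mod_cast hm
  calc (1 + 1 / (m : ℝ)) ^ m ≤ exp (1 / m) ^ m := by
        gcongr; linarith [add_one_le_exp (1 / (m : ℝ))]
    _ = exp 1 := by rw [← exp_nat_mul]; congr 1; field_simp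

theorem w_shift (hm : 1 ≤ m) {i : ℕ} (hi : m ≤ i) : w m (i - m) ≤ exp 1 * w m i := by
  have h0 : (0 : ℝ) < m := by exact_mod_cast hm
  have hq : w m i = w m (i - m) * ((m : ℝ) / (m + 1)) ^ m := by
    unfold w; rw [div_mul_eq_mul_div, ← pow_add, Nat.sub_add_cancel hi]
  have h := one_add_inv_pow_le hm
  have he : ((m : ℝ) / (m + 1)) ^ m * (1 + 1 / (m : ℝ)) ^ m = 1 := by
    rw [← mul_pow, show (m : ℝ) / (m + 1) * (1 + 1 / m) = 1 by field_simp, one_pow]
  have hp : (0 : ℝ) ≤ ((m : ℝ) / (m + 1)) ^ m := pow_nonneg (q_pos hm).le _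
  calc w m (i - m) = w m (i - m) * (((m : ℝ) / (m + 1)) ^ m * (1 + 1 / (m : ℝ)) ^ m) := by
        rw [he, mul_one]
    _ ≤ w m (i - m) * (((m : ℝ) / (m + 1)) ^ m * exp 1) :=
        mul_le_mul_of_nonneg_left (mul_le_mul_of_nonneg_left h hp) (w_pos hm _).le
    _ = exp 1 * w m i := by rw [hq]; ring

/-- The weight is almost the exponential. -/
theorem w_ge_exp (hm : 1 ≤ m) {i : ℕ} (hi : 2 * m ≤ i) :
    exp (3 - (i : ℝ) / m) * exp (-(1 / (m : ℝ))) ≤ w m i := by
  have h0 : (0 : ℝ) < m := by exact_mod_cast hm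
  have hq := q_pos hm
  have hw : w m i = exp ((3 * (m : ℝ) - i) * log (((m : ℝ) + 1) / m)) := by
    unfold w
    rw [← exp_log (div_pos (pow_pos hq i) (pow_pos hq (3 * m))), log_div (pow_pos hq i).ne'
      (pow_pos hq _).ne', log_pow, log_pow,
      show log ((m : ℝ) / (m + 1)) = -log (((m : ℝ) + 1) / m) by rw [← log_inv, inv_div]]
    push_cast
    congr 1; ring
  have hl1 : log (((m : ℝ) + 1) / m) ≤ 1 / m := by
    have := log_le_sub_one_of_pos (show 0 < ((m : ℝ) + 1) / m by positivity)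
    have e : ((m : ℝ) + 1) / m - 1 = 1 / m := by field_simp; ring
    linarith
  have hl2 : 1 / ((m : ℝ) + 1) ≤ log (((m : ℝ) + 1) / m) := by
    have := one_sub_inv_le_log_of_pos (show 0 < ((m : ℝ) + 1) / m by positivity)
    have e : 1 - (((m : ℝ) + 1) / m)⁻¹ = 1 / ((m : ℝ) + 1) := by field_simp; ring
    linarith
  rw [hw, ← exp_add, exp_le_exp]
  set t := 3 * (m : ℝ) - i with ht
  have e1 : 3 - (i : ℝ) / m + -(1 / (m : ℝ)) = (t - 1) / m := by rw [ht]; field_simp; ring
  rw [e1]
  rcases le_or_gt 0 t with h | h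
  · refine le_trans ?_ (mul_le_mul_of_nonneg_left hl2 h)
    rw [mul_one_div, div_le_div_iff₀ h0 (by linarith)]
    have : t ≤ m := by
      have : (2 * m : ℝ) ≤ i := by exact_mod_cast hi
      linarith
    nlinarith
  · refine le_trans ?_ (mul_le_mul_of_nonpos_left hl1 h.le)
    rw [mul_one_div]
    gcongr
    linarith

theorem harm_le {a b : ℕ} (ha : 1 ≤ a) (hab : a ≤ b) :
    ∑ l ∈ Ico a b, 1 / (l : ℝ) ≤ log ((b : ℝ) / a) + 1 / a - 1 / b := by
  have ha' : (0 : ℝ) < a := by exact_mod_cast ha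
  induction b, hab using Nat.le_induction with
  | base => simp [div_self ha'.ne']
  | succ b hab ih =>
    have hb : (0 : ℝ) < b := lt_of_lt_of_le ha' (by exact_mod_cast hab)
    rw [sum_Ico_succ_top hab]
    have h := one_sub_inv_le_log_of_pos (show 0 < ((b : ℝ) + 1) / b by positivity)
    have e : 1 - (((b : ℝ) + 1) / b)⁻¹ = 1 / ((b : ℝ) + 1) := by field_simp; ring
    have hl : log (((b + 1 : ℕ) : ℝ) / a) = log ((b : ℝ) / a) + log (((b : ℝ) + 1) / b) := by
      rw [← log_mul (by positivity) (by positivity)]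
      congr 1; push_cast; field_simp
    rw [hl]
    push_cast
    linarith

/-- The recursion contracts the weight on the lower side. -/
theorem lower_contract (hm : 200 ≤ m) {i : ℕ} (hi : 2 * m ≤ i) :
    ∑ j ∈ Icc i N, (if j - m < 3 * m then 3 * (m : ℝ) / (j - m : ℕ) else w m (j - m))
      ≤ 95 / 100 * i * w m i := by
  have hm1 : 1 ≤ m := by omega
  have h0 : (200 : ℝ) ≤ m := by exact_mod_cast hm
  have hw := w_pos hm1 i
  rcases le_or_gt (4 * m) i with h4 | h4
  · have h : ∀ j ∈ Icc i N, (if j - m < 3 * m then 3 * (m : ℝ) / (j - m : ℕ) else w m (j - m))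
        = w m (j - m) := fun j hj => if_neg (by have := (mem_Icc.1 hj).1; omega)
    rw [sum_congr rfl h]
    calc ∑ j ∈ Icc i N, w m (j - m) ≤ ∑ l ∈ Icc (i - m) (N - m), w m l := by
          refine le_of_eq_of_le (sum_image (g := fun j => j - m) (f := w m) ?_).symm
            (sum_le_sum_of_subset_of_nonneg ?_ fun l _ _ => (w_pos hm1 l).le)
          · intro x hx y hy hxy
            have := (mem_Icc.1 hx).1; have := (mem_Icc.1 hy).1
            simp only at hxy; omega
          · intro l hl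
            obtain ⟨j, hj, rfl⟩ := mem_image.1 hl
            have := mem_Icc.1 hj
            exact mem_Icc.2 ⟨by omega, by omega⟩
      _ ≤ ((m : ℝ) + 1) * (exp 1 * w m i) :=
          (geom_le hm1 _ _).trans (mul_le_mul_of_nonneg_left (w_shift hm1 (by omega)) (by positivity))
      _ ≤ _ := by
          have he := exp_one_lt_d9
          have hiR : 4 * (m : ℝ) ≤ i := by exact_mod_cast h4
          have : ((m : ℝ) + 1) * exp 1 ≤ 95 / 100 * i := by nlinarith [exp_pos (1 : ℝ)]
          rw [← mul_assoc]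
          exact mul_le_mul_of_nonneg_right this hw.le
  · set F : ℕ → ℝ := fun l => if l < 3 * m then 3 * (m : ℝ) / l else w m l with hF
    have hF0 : ∀ l, 0 ≤ F l := fun l => by
      simp only [hF]; split_ifs
      · positivity
      · exact (w_pos hm1 l).le
    have hsub : ∑ j ∈ Icc i N, F (j - m)
        ≤ ∑ l ∈ Ico (i - m) (3 * m), F l + ∑ l ∈ Icc (3 * m) (N - m), F l := by
      rw [← sum_union (disjoint_left.2 fun l h1 h2 => by
        have := (mem_Ico.1 h1).2; have := (mem_Icc.1 h2).1; omega)]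
      refine le_of_eq_of_le (sum_image (g := fun j => j - m) (f := F) ?_).symm
        (sum_le_sum_of_subset_of_nonneg ?_ fun l _ _ => hF0 l)
      · intro x hx y hy hxy
        have := (mem_Icc.1 hx).1; have := (mem_Icc.1 hy).1
        simp only at hxy; omega
      · intro l hl
        obtain ⟨j, hj, rfl⟩ := mem_image.1 hl
        have := mem_Icc.1 hj
        rcases lt_or_ge (j - m) (3 * m) with h | h
        · exact mem_union_left _ (mem_Ico.2 ⟨by omega, h⟩)
        · exact mem_union_right _ (mem_Icc.2 ⟨h, by omega⟩)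
    have hA : ∑ l ∈ Ico (i - m) (3 * m), F l
        ≤ 3 * m * (log ((3 * m : ℕ) / ((i - m : ℕ) : ℝ)) + 1 / (i - m : ℕ)) := by
      rw [sum_congr rfl (g := fun l : ℕ => 3 * (m : ℝ) * (1 / (l : ℝ))) fun l hl => by
        simp only [hF, if_pos (mem_Ico.1 hl).2]; ring, ← mul_sum]
      refine mul_le_mul_of_nonneg_left ((harm_le (by omega) (by omega)).trans ?_) (by positivity)
      linarith [show 0 ≤ 1 / ((3 * m : ℕ) : ℝ) by positivity]
    have hB : ∑ l ∈ Icc (3 * m) (N - m), F l ≤ (m : ℝ) + 1 := by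
      rw [sum_congr rfl (g := w m) fun l hl => by
        simp only [hF, if_neg (not_lt.2 (mem_Icc.1 hl).1)]]
      refine (geom_le hm1 _ _).trans (le_of_eq ?_)
      rw [(w_three (m := m)).resolve_right (by omega), mul_one]
    refine hsub.trans ((add_le_add hA hB).trans ?_)
    set x := (i : ℝ) / m with hx
    have hiR : 2 * (m : ℝ) ≤ i := by exact_mod_cast hi
    have hiR4 : (i : ℝ) ≤ 4 * m := by exact_mod_cast h4.le
    have hx2 : 2 ≤ x := by rw [hx, le_div_iff₀ (by positivity)]; linarith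
    have hx4 : x ≤ 4 := by rw [hx, div_le_iff₀ (by positivity)]; linarith
    have hk := key_ineq hx2 hx4
    have hwexp := w_ge_exp hm1 hi
    rw [← hx] at hwexp
    have e1 : ((3 * m : ℕ) : ℝ) / ((i - m : ℕ) : ℝ) = 3 / (x - 1) := by
      rw [Nat.cast_sub (by omega), hx]; push_cast
      have : (i : ℝ) - m ≠ 0 := by linarith
      field_simp
    have e2 : 3 * (m : ℝ) * (1 / ((i - m : ℕ) : ℝ)) ≤ 3 := by
      rw [Nat.cast_sub (by omega), mul_one_div, div_le_iff₀ (by linarith)]; linarith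
    have hm1e : 99 / 100 ≤ exp (-(1 / (m : ℝ))) := by
      have h1 := add_one_le_exp (-(1 / (m : ℝ)))
      have : 1 / (m : ℝ) ≤ 1 / 100 := by gcongr; linarith
      linarith
    have hex := exp_pos (3 - x)
    have h3 : exp (3 - x) * (99 / 100) ≤ w m i :=
      (mul_le_mul_of_nonneg_left hm1e hex.le).trans hwexp
    have hix : (i : ℝ) = x * m := by rw [hx]; field_simp
    rw [e1, mul_add]
    calc 3 * (m : ℝ) * log (3 / (x - 1)) + 3 * m * (1 / ((i - m : ℕ) : ℝ)) + ((m : ℝ) + 1)
        ≤ m * (3 * log (3 / (x - 1)) + 51 / 50) := by nlinarith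
      _ ≤ m * (17 / 20 * x * exp (3 - x)) := mul_le_mul_of_nonneg_left hk (by positivity)
      _ ≤ m * (95 / 100 * x * (exp (3 - x) * (99 / 100))) := by
          refine mul_le_mul_of_nonneg_left ?_ (by positivity)
          nlinarith [mul_nonneg (by linarith : (0 : ℝ) ≤ x) hex.le]
      _ ≤ m * (95 / 100 * x * w m i) := by gcongr
      _ = 95 / 100 * i * w m i := by rw [hix]; ring

/-- The recursion contracts the weight on the upper side. -/
theorem upper_contract (hm : 200 ≤ m) {i : ℕ} (hi : 3 * m ≤ i) :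
    ∑ j ∈ Icc i N, w m (j - m) ≤ 95 / 100 * i * w m i := by
  have hm1 : 1 ≤ m := by omega
  have h0 : (200 : ℝ) ≤ m := by exact_mod_cast hm
  calc ∑ j ∈ Icc i N, w m (j - m) ≤ ∑ l ∈ Icc (i - m) (N - m), w m l := by
        refine le_of_eq_of_le (sum_image (g := fun j => j - m) (f := w m) ?_).symm
          (sum_le_sum_of_subset_of_nonneg ?_ fun l _ _ => (w_pos hm1 l).le)
        · intro x hx y hy hxy
          have := (mem_Icc.1 hx).1; have := (mem_Icc.1 hy).1
          simp only at hxy; omega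
        · intro l hl
          obtain ⟨j, hj, rfl⟩ := mem_image.1 hl
          have := mem_Icc.1 hj
          exact mem_Icc.2 ⟨by omega, by omega⟩
    _ ≤ ((m : ℝ) + 1) * (exp 1 * w m i) :=
        (geom_le hm1 _ _).trans (mul_le_mul_of_nonneg_left (w_shift hm1 (by omega)) (by positivity))
    _ ≤ _ := by
        have he := exp_one_lt_d9
        have hiR : 3 * (m : ℝ) ≤ i := by exact_mod_cast hi
        have : ((m : ℝ) + 1) * exp 1 ≤ 95 / 100 * i := by nlinarith [exp_pos (1 : ℝ)]
        rw [← mul_assoc]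
        exact mul_le_mul_of_nonneg_right this (w_pos hm1 i).le

theorem w_ge_of_le (hm : 1 ≤ m) {i : ℕ} (hi : 2 * m ≤ i) (hi4 : i ≤ 4 * m) : 1 / 10 ≤ w m i := by
  have h0 : (1 : ℝ) ≤ m := by exact_mod_cast hm
  refine le_trans ?_ (w_ge_exp hm hi)
  have h1 : (i : ℝ) / m ≤ 4 := by
    rw [div_le_iff₀ (by linarith)]; exact_mod_cast hi4
  have h2 : 1 / (m : ℝ) ≤ 1 := by rw [div_le_iff₀ (by linarith)]; linarith
  rw [← exp_add]
  calc (1 : ℝ) / 10 ≤ exp (-1) * exp (-1) := by
        have := exp_neg_one_gt_d9; nlinarith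
    _ ≤ _ := by rw [← exp_add]; exact exp_le_exp.2 (by linarith)

/-- The iterates stay below a multiple of the weight. -/
theorem iter_le (hm : 200 ≤ m) (n i : ℕ) :
    (iter m N n).1 i ≤ 800 * w m i ∧ (iter m N n).2 i ≤ 800 * w m i := by
  have hm1 : 1 ≤ m := by omega
  induction n generalizing i with
  | zero => simp [iter, (w_pos hm1 i).le]
  | succ n ih =>
    rw [iter_succ]
    refine ⟨?_, ?_⟩ <;> simp only [step] <;> split_ifs with hi
    · exact mul_nonneg (by norm_num) (w_pos hm1 i).le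
    · have hi' : 2 * m ≤ i := not_lt.1 hi
      have hi0 : (0 : ℝ) < i := by exact_mod_cast (by omega : 0 < i)
      rw [div_le_iff₀ hi0]
      have hext : ∀ j ∈ Icc i N, hatOf m (iter m N n).2 (j - m)
          ≤ 800 * (if j - m < 3 * m then 3 * (m : ℝ) / (j - m : ℕ) else w m (j - m))
            + (if j < 4 * m then 2 else 0) := by
        intro j hj
        have hj1 := (mem_Icc.1 hj).1
        unfold hatOf
        split_ifs with h1 h2 h2
        · have h3 := (ih (3 * m)).2
          rw [(w_three (m := m)).resolve_right (by omega), mul_one] at h3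
          have hl : (m : ℝ) ≤ (j - m : ℕ) := by exact_mod_cast (by omega : m ≤ j - m)
          have hl0 : (0 : ℝ) < (j - m : ℕ) := by exact_mod_cast (by omega : 0 < j - m)
          have h4 : 3 * (m : ℝ) * (1 + (iter m N n).2 (3 * m)) / (j - m : ℕ)
              ≤ 3 * (m : ℝ) * (1 + 800) / (j - m : ℕ) := by gcongr
          have h5 : 3 * (m : ℝ) / (j - m : ℕ) ≤ 3 := by rw [div_le_iff₀ hl0]; linarith
          have h6 : 3 * (m : ℝ) * (1 + 800) / (j - m : ℕ)
              = 800 * (3 * (m : ℝ) / (j - m : ℕ)) + 3 * (m : ℝ) / (j - m : ℕ) := by ring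
          linarith
        · omega
        · omega
        · simpa using (ih (j - m)).2
      refine (sum_le_sum hext).trans ?_
      rw [sum_add_distrib, ← mul_sum]
      have hA := lower_contract (N := N) hm hi'
      have hB : ∑ j ∈ Icc i N, (if j < 4 * m then (2 : ℝ) else 0) ≤ 40 * i * w m i := by
        rcases lt_or_ge i (4 * m) with h4 | h4
        · have hwi := w_ge_of_le hm1 hi' h4.le
          rw [← sum_filter, sum_const, nsmul_eq_mul]
          have hc : (((Icc i N).filter fun j => j < 4 * m).card : ℝ) ≤ 2 * m := by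
            have h : (Icc i N).filter (fun j => j < 4 * m) ⊆ Ico i (4 * m) := fun j hj => by
              obtain ⟨h1, h2⟩ := mem_filter.1 hj
              exact mem_Ico.2 ⟨(mem_Icc.1 h1).1, h2⟩
            exact_mod_cast (card_le_card h).trans (by simp; omega)
          have hiR : 2 * (m : ℝ) ≤ i := by exact_mod_cast hi'
          nlinarith
        · rw [sum_eq_zero fun j hj => if_neg (by have := (mem_Icc.1 hj).1; omega)]
          have := w_pos hm1 i; positivity
      nlinarith [w_pos hm1 i, mul_pos hi0 (w_pos hm1 i)]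
    · exact mul_nonneg (by norm_num) (w_pos hm1 i).le
    · have hi' : 3 * m ≤ i := not_lt.1 hi
      have hi0 : (0 : ℝ) < i := by exact_mod_cast (by omega : 0 < i)
      rw [div_le_iff₀ hi0]
      refine (sum_le_sum fun j _ => (ih (j - m)).1).trans ?_
      rw [← mul_sum]
      nlinarith [upper_contract (N := N) hm hi', w_pos hm1 i, mul_pos hi0 (w_pos hm1 i)]

theorem iter_bound (hm : 200 ≤ m) (n i : ℕ) :
    (iter m N n).1 i ≤ 2400 ∧ (iter m N n).2 i ≤ 2400 := by
  have hm1 : 1 ≤ m := by omega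
  rcases lt_or_ge i (2 * m) with hi | hi
  · cases n with
    | zero => simp [iter]
    | succ n =>
      rw [iter_succ]
      constructor <;> simp only [step] <;> rw [if_pos (by omega)] <;> norm_num
  · have hw : w m i ≤ 3 := by
      have hq := q_pos hm1
      have h1 : w m i ≤ w m (2 * m) := by
        unfold w
        refine div_le_div_of_nonneg_right ?_ (pow_nonneg hq.le _)
        exact pow_le_pow_of_le_one hq.le (by rw [div_le_one (by positivity)]; linarith) hi
      have h2 := w_shift hm1 (i := 3 * m) (by omega)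
      rw [(w_three (m := m)).resolve_right (by omega), show 3 * m - m = 2 * m by omega] at h2
      linarith [exp_one_lt_d9]
    obtain ⟨h1, h2⟩ := iter_le (N := N) hm n i
    constructor <;> linarith

theorem tends_ps (hm : 200 ≤ m) (i : ℕ) :
    Tendsto (fun n => (iter m N n).1 i) atTop (𝓝 (ps m N i)) :=
  tendsto_atTop_ciSup (fun _ _ h => (iter_mono (by omega) h).1 i)
    ⟨2400, by rintro _ ⟨n, rfl⟩; exact (iter_bound hm n i).1⟩

theorem tends_ph (hm : 200 ≤ m) (i : ℕ) :
    Tendsto (fun n => (iter m N n).2 i) atTop (𝓝 (ph m N i)) :=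
  tendsto_atTop_ciSup (fun _ _ h => (iter_mono (by omega) h).2 i)
    ⟨2400, by rintro _ ⟨n, rfl⟩; exact (iter_bound hm n i).2⟩

/-- The lower equation. -/
theorem ps_eq (hm : 200 ≤ m) {i : ℕ} (hi : 2 * m ≤ i) :
    (i : ℝ) * ps m N i = ∑ j ∈ Icc i N, hat m N (j - m) := by
  have h : Tendsto (fun n => (iter m N (n + 1)).1 i) atTop
      (𝓝 ((∑ j ∈ Icc i N, hat m N (j - m)) / i)) := by
    simp only [iter_succ, step, if_neg (not_lt.2 hi)]
    refine (tendsto_finsetSum _ fun j _ => ?_).div_const _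
    unfold hat hatOf
    split_ifs
    · exact ((tendsto_const_nhds.add (tends_ph hm _)).const_mul _ |>.div_const _).sub_const _
    · exact tends_ph hm _
  rw [tendsto_nhds_unique ((tends_ps hm i).comp (tendsto_add_atTop_nat 1)) h, mul_comm,
    div_mul_cancel₀]
  exact_mod_cast (by omega : i ≠ 0)

/-- The upper equation. -/
theorem ph_eq (hm : 200 ≤ m) {i : ℕ} (hi : 3 * m ≤ i) :
    (i : ℝ) * ph m N i = ∑ j ∈ Icc i N, ps m N (j - m) := by
  have h : Tendsto (fun n => (iter m N (n + 1)).2 i) atTop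
      (𝓝 ((∑ j ∈ Icc i N, ps m N (j - m)) / i)) := by
    simp only [iter_succ, step, if_neg (not_lt.2 hi)]
    exact (tendsto_finsetSum _ fun j _ => tends_ps hm _).div_const _
  rw [tendsto_nhds_unique ((tends_ph hm i).comp (tendsto_add_atTop_nat 1)) h, mul_comm,
    div_mul_cancel₀]
  exact_mod_cast (by omega : i ≠ 0)

theorem ps_mem (hm : 200 ≤ m) (i : ℕ) : 0 ≤ ps m N i ∧ ps m N i ≤ 2400 :=
  ⟨ge_of_tendsto' (tends_ps hm i) fun n => (iter_mono (by omega) (Nat.zero_le n)).1 i,
    le_of_tendsto' (tends_ps hm i) fun n => (iter_bound hm n i).1⟩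

theorem ph_mem (hm : 200 ≤ m) (i : ℕ) : 0 ≤ ph m N i ∧ ph m N i ≤ 2400 :=
  ⟨ge_of_tendsto' (tends_ph hm i) fun n => (iter_mono (by omega) (Nat.zero_le n)).2 i,
    le_of_tendsto' (tends_ph hm i) fun n => (iter_bound hm n i).2⟩

theorem hat_nonneg (hm : 200 ≤ m) {l : ℕ} (hl : 1 ≤ l) : 0 ≤ hat m N l :=
  hatOf_nonneg (fun i => (ph_mem hm i).1) hl

theorem hat_le (hm : 200 ≤ m) {l : ℕ} (hl : m - 1 ≤ l) : hat m N l ≤ 8000 := by
  unfold hat hatOf
  split_ifs with h
  · have h0 : (200 : ℝ) ≤ m := by exact_mod_cast hm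
    have hl' : (m : ℝ) - 1 ≤ l := by
      have : ((m - 1 : ℕ) : ℝ) ≤ l := by exact_mod_cast hl
      rwa [Nat.cast_sub (by omega), Nat.cast_one] at this
    rw [sub_le_iff_le_add, div_le_iff₀ (by linarith)]
    nlinarith [(ph_mem (N := N) hm (3 * m)).2, (ph_mem (N := N) hm (3 * m)).1]
  · linarith [(ph_mem (N := N) hm l).2]

theorem ph_anti (hm : 200 ≤ m) {i j : ℕ} (hi : 3 * m ≤ i) (hij : i ≤ j) : ph m N j ≤ ph m N i := by
  have hsub : ∑ l ∈ Icc j N, ps m N (l - m) ≤ ∑ l ∈ Icc i N, ps m N (l - m) :=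
    sum_le_sum_of_subset_of_nonneg (Icc_subset_Icc_left hij) fun l _ _ => (ps_mem hm _).1
  rw [← ph_eq hm hi, ← ph_eq hm (hi.trans hij)] at hsub
  have h1 : (i : ℝ) ≤ j := by exact_mod_cast hij
  have h2 : (0 : ℝ) < i := by exact_mod_cast (by omega : 0 < i)
  nlinarith [(ph_mem (N := N) hm j).1]

theorem hat_anti (hm : 200 ≤ m) {i j : ℕ} (hi : 1 ≤ i) (hij : i ≤ j) :
    hat m N j ≤ hat m N i := by
  have hi0 : (0 : ℝ) < i := by exact_mod_cast hi
  have hp := (ph_mem (N := N) hm (3 * m)).1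
  have key : ∀ l : ℕ, 1 ≤ l → l ≤ 3 * m →
      ph m N (3 * m) ≤ 3 * m * (1 + ph m N (3 * m)) / l - 1 := by
    intro l hl hl3
    have : (l : ℝ) ≤ 3 * m := by exact_mod_cast hl3
    rw [le_sub_iff_add_le, le_div_iff₀ (by exact_mod_cast hl)]
    nlinarith
  unfold hat hatOf
  split_ifs with h1 h2 h2
  · gcongr
  · omega
  · exact (ph_anti hm le_rfl (not_lt.1 h1)).trans (key i hi h2.le)
  · exact ph_anti hm (not_lt.1 h2) hij

end Vale.Agent.P013.Jac
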