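import Mathlib

/-! Elementary real inequalities for the weighted bound of the truncated sieve functions. -/

namespace Vale.Agent.P013.Jac

open Real Finset

/-- A rational upper bound for the logarithm. -/
theorem log_le_pade {y : ℝ} (hy : 1 ≤ y) : log y ≤ (y - 1) * (y + 5) / (2 * (2 * y + 1)) := by
  let g : ℝ → ℝ := fun y => (y - 1) * (y + 5) / (2 * (2 * y + 1)) - log y
  have hd : ∀ x : ℝ, 1 ≤ x → HasDerivAt g ((x - 1) ^ 3 / (x * (2 * x + 1) ^ 2)) x := by
    intro x hx
    have hne : (2 * (2 * x + 1)) ≠ 0 := by positivity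
    have h := ((((hasDerivAt_id' x).sub_const 1).mul ((hasDerivAt_id' x).add_const 5)).div
      ((((hasDerivAt_id' x).const_mul 2).add_const 1).const_mul 2) hne).sub
      (hasDerivAt_log (show x ≠ 0 by linarith))
    refine h.congr_deriv ?_
    have hx0 : x ≠ 0 := by linarith
    simp only [Pi.mul_apply]
    field_simp
    ring
  have hmono : MonotoneOn g (Set.Ici 1) := by
    refine monotoneOn_of_deriv_nonneg (convex_Ici 1)
      (fun x hx => (hd x hx).continuousAt.continuousWithinAt)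
      (fun x hx => ((hd x (interior_subset hx)).differentiableAt).differentiableWithinAt) fun x hx => ?_
    have hx1 : 1 ≤ x := interior_subset hx
    rw [(hd x hx1).deriv]
    exact div_nonneg (pow_nonneg (by linarith) _) (by positivity)
  have := hmono Set.self_mem_Ici hy hy
  simp [g] at this
  linarith

/-- A polynomial lower bound for the exponential on `[-1, 1]`. -/
theorem exp_ge_poly {t : ℝ} (ht : |t| ≤ 1) :
    1 + t + t ^ 2 / 2 + t ^ 3 / 6 + t ^ 4 / 24 - 1 / 100 ≤ exp t := by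
  have h := abs_le.1 (exp_bound ht (n := 5) (by norm_num))
  have h5 : |t| ^ 5 ≤ 1 := pow_le_one₀ (abs_nonneg t) ht
  norm_num [sum_range_succ, Nat.factorial] at h
  nlinarith [h.1]

/-- The inequality behind the contraction on `[2, 4]`. -/
theorem key_ineq {x : ℝ} (h2 : 2 ≤ x) (h4 : x ≤ 4) :
    3 * log (3 / (x - 1)) + 51 / 50 ≤ 17 / 20 * x * exp (3 - x) := by
  have hx1 : 0 < x - 1 := by linarith
  have hy : 1 ≤ 3 / (x - 1) := by rw [le_div_iff₀ hx1]; linarith
  have hl := log_le_pade hy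
  have he := exp_ge_poly (t := 3 - x) (abs_le.2 ⟨by linarith, by linarith⟩)
  have hr : (3 / (x - 1) - 1) * (3 / (x - 1) + 5) / (2 * (2 * (3 / (x - 1)) + 1))
      = (4 - x) * (5 * x - 2) / (2 * (x - 1) * (x + 5)) := by
    have : x - 1 ≠ 0 := hx1.ne'
    have : x + 5 ≠ 0 := by linarith
    field_simp
    ring
  rw [hr] at hl
  have hpoly : 3 * ((4 - x) * (5 * x - 2) / (2 * (x - 1) * (x + 5))) + 51 / 50
      ≤ 17 / 20 * x * (1 + (3 - x) + (3 - x) ^ 2 / 2 + (3 - x) ^ 3 / 6 + (3 - x) ^ 4 / 24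
        - 1 / 100) := by
    rw [← mul_div_assoc, div_add_div _ _ (by positivity) (by norm_num), div_le_iff₀ (by positivity)]
    obtain ⟨s, rfl⟩ : ∃ s, x = 2 + s := ⟨x - 2, by ring⟩
    have hs0 : 0 ≤ s := by linarith
    have hs2 : 0 ≤ 2 - s := by linarith
    nlinarith [mul_nonneg hs0 hs2, mul_nonneg (mul_nonneg hs0 hs2) hs0, pow_nonneg hs0 3,
      mul_nonneg (mul_nonneg hs0 hs2) hs2, pow_nonneg hs0 4, pow_nonneg hs0 5,
      mul_nonneg (mul_nonneg hs0 hs2) (sq_nonneg (s - 1)),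
      mul_nonneg (mul_nonneg hs0 hs2) (mul_nonneg hs0 (sq_nonneg (s - 1)))]
  have := mul_le_mul_of_nonneg_left he (by linarith : (0 : ℝ) ≤ 17 / 20 * x)
  linarith

end Vale.Agent.P013.Jac
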